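import Vale.Agent.P286.H42.ChevD

/-! Chevalley restriction for `sp` and odd `so`: final form. -/

namespace Vale.Agent.P286.H42

open MvPolynomial Matrix
open Vale.Agent.P286.H374

noncomputable section

set_option linter.unusedSectionVars false

variable {I : Type} [Fintype I] [DecidableEq I] (S : Dat I)

/-- The generators: the even coefficients of the characteristic polynomial, as polynomials on the
Lie algebra. -/
def ys (n : ℕ) (k : Fin n) : PM I := S.proj (chc (Fintype.card I - 2 * (k + 1)))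

theorem proj_ys (n : ℕ) (k : Fin n) : S.proj (ys S n k) = ys S n k := proj_proj S _

theorem ad_ys (n : ℕ) (k : Fin n) (A : Matrix I I ℂ) (hA : S.Mem A) : ad A (ys S n k) = 0 := by
  rw [ys, ad_proj S A hA, ad_chc, map_zero]

theorem proj_aeval {n : ℕ} (P : MvPolynomial (Fin n) ℂ) :
    S.proj (aeval (ys S n) P) = aeval (ys S n) P := by
  rw [← AlgHom.comp_apply, comp_aeval]
  have : (fun i => S.proj (ys S n i)) = ys S n := funext (proj_ys S n)
  rw [this]

theorem ad_aeval {n : ℕ} (A : Matrix I I ℂ) (hA : S.Mem A) (P : MvPolynomial (Fin n) ℂ) :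
    ad A (aeval (ys S n) P) = 0 := by
  induction P using MvPolynomial.induction_on with
  | C a => rw [← MvPolynomial.algebraMap_eq, AlgHom.commutes, Derivation.map_algebraMap]
  | add p q hp hq => rw [map_add, map_add, hp, hq, add_zero]
  | mul_X p i hp =>
    rw [map_mul, aeval_X, Derivation.leibniz, hp, ad_ys S n i A hA, smul_zero, smul_zero, add_zero]

namespace Car

variable {S} {n : ℕ} (c : Car S n)

/-- The restriction of the generators. -/
def Good : Prop := ∀ k : Fin n,
  c.res (chc (Fintype.card I - 2 * (k + 1))) = (-1) ^ ((k : ℕ) + 1) * esq n k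

theorem res_chc (m : ℕ) : c.res (chc m) =
    (∏ i : I, (Polynomial.X - Polynomial.C (c.cx (fun a => (X a : MvPolynomial (Fin n) ℂ)) i))).coeff
      m := by
  rw [chc]
  change (c.res : PM I →+* MvPolynomial (Fin n) ℂ) _ = _
  rw [← Polynomial.coeff_map, ← Matrix.charpoly_map]
  have : (mvPolynomialX I I ℂ).map (c.res : PM I →+* MvPolynomial (Fin n) ℂ) =
      Matrix.diagonal (c.cx (fun a => (X a : MvPolynomial (Fin n) ℂ))) := by
    ext i k : 2
    rw [Matrix.map_apply, mvPolynomialX_apply, Matrix.diagonal_apply, RingHom.coe_coe, res,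
      aeval_X]
  rw [this, Matrix.charpoly_diagonal]

theorem exists_aeval (hs : S.k = -1 ∨ ∃ o, S.p o = o) (hg : c.Good) (F : PM I)
    (h1 : S.proj F = F) (h2 : ∀ A, S.Mem A → ad A F = 0) :
    ∃ P : MvPolynomial (Fin n) ℂ, F = aeval (ys S n) P := by
  obtain ⟨P0, hP0⟩ := exists_aeval_esq (c.res F) (fun a b x hab => c.res_swap F h2 a b hab x)
    (fun a x => c.res_sign hs F h2 a x)
  set P : MvPolynomial (Fin n) ℂ := aeval (fun k : Fin n => (-1) ^ ((k : ℕ) + 1) * X k) P0 with hP
  refine ⟨P, ?_⟩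
  have hres : c.res (aeval (ys S n) P) = c.res F := by
    have e1 : ∀ k : Fin n, c.res (ys S n k) = (-1) ^ ((k : ℕ) + 1) * esq n k := fun k => by
      rw [ys, c.res_proj]; exact hg k
    rw [← AlgHom.comp_apply, comp_aeval, hP, ← AlgHom.comp_apply, comp_aeval, hP0]
    congr 2
    funext k
    simp only [map_mul, map_pow, map_neg, map_one, aeval_X]
    rw [e1, ← mul_assoc, ← mul_pow]
    norm_num
  rw [← sub_eq_zero]
  apply S.eq_zero
  · rw [map_sub, h1, proj_aeval]
  · intro A hA
    rw [map_sub, h2 A hA, ad_aeval S A hA, sub_zero]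
  · intro x hx
    have hx' : x = c.cx (fun a => x (c.j a)) := c.cx_unique x _ hx (fun _ => rfl)
    rw [hx', ← c.eval_res, map_sub, hres, sub_self, map_zero]

theorem algInd (hg : c.Good) : AlgebraicIndependent ℂ (ys S n) := by
  rw [algebraicIndependent_iff_injective_aeval, injective_iff_map_eq_zero]
  intro P hP
  have e1 : ∀ k : Fin n, c.res (ys S n k) = (-1) ^ ((k : ℕ) + 1) * esq n k := fun k => by
    rw [ys, c.res_proj]; exact hg k
  set Q : MvPolynomial (Fin n) ℂ := aeval (fun k : Fin n => (-1) ^ ((k : ℕ) + 1) * X k) P with hQ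
  have h1 : aeval (esq n) Q = 0 := by
    rw [hQ, ← AlgHom.comp_apply, comp_aeval]
    have h2 := congrArg c.res hP
    rw [map_zero, ← AlgHom.comp_apply, comp_aeval] at h2
    rw [← h2]
    congr 2
    funext k
    rw [e1]
    simp only [map_mul, map_pow, map_neg, map_one, aeval_X]
  have h3 : Q = 0 := aeval_esq_injective n (by rw [h1, map_zero])
  have h4 : aeval (fun k : Fin n => (-1) ^ ((k : ℕ) + 1) * (X k : MvPolynomial (Fin n) ℂ)) Q =
      P := by
    rw [hQ, ← AlgHom.comp_apply, comp_aeval]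
    conv_rhs => rw [← aeval_X_left_apply P]
    congr 2
    funext k
    simp only [map_mul, map_pow, map_neg, map_one, aeval_X]
    rw [← mul_assoc, ← mul_pow]
    norm_num
  rw [← h4, h3, map_zero]

end Car

theorem vieta (n : ℕ) (k : Fin n) :
    (∏ a : Fin n, (Polynomial.X + Polynomial.C (-(X a ^ 2) : MvPolynomial (Fin n) ℂ))).coeff
      (n - (k + 1)) = (-1) ^ ((k : ℕ) + 1) * esq n k := by
  have hk : (k : ℕ) + 1 ≤ n := k.2
  rw [Finset.prod_X_add_C_coeff Finset.univ _ (by rw [Finset.card_univ, Fintype.card_fin]; omega),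
    Finset.card_univ, Fintype.card_fin]
  have h1 : n - (n - ((k : ℕ) + 1)) = (k : ℕ) + 1 := by omega
  rw [h1, esq, esymm, map_sum, Finset.mul_sum]
  refine Finset.sum_congr rfl fun t ht => ?_
  rw [Finset.mem_powersetCard] at ht
  rw [map_prod, ← ht.2, ← Finset.prod_const, ← Finset.prod_mul_distrib]
  refine Finset.prod_congr rfl fun i _ => ?_
  rw [expand_X]; ring

theorem prod_sq (n : ℕ) :
    (∏ a : Fin n, (Polynomial.X - Polynomial.C (X a : MvPolynomial (Fin n) ℂ))) *
      (∏ a : Fin n, (Polynomial.X - Polynomial.C (-X a : MvPolynomial (Fin n) ℂ))) =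
    Polynomial.expand _ 2
      (∏ a : Fin n, (Polynomial.X + Polynomial.C (-(X a ^ 2) : MvPolynomial (Fin n) ℂ))) := by
  rw [← Finset.prod_mul_distrib, map_prod]
  refine Finset.prod_congr rfl fun a _ => ?_
  rw [map_add, Polynomial.expand_X, Polynomial.expand_C]
  simp only [map_neg, map_pow]
  ring

/-- The Cartan subspace of `sp`. -/
def carSp (n : ℕ) : Car (Dat.sp n) n where
  j := Sum.inl
  inj := Sum.inl_injective
  ne a b h := by cases h
  cov i := by
    rcases i with a | a
    · exact Or.inl ⟨a, rfl⟩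
    · exact Or.inr (Or.inl ⟨a, rfl⟩)

/-- The Cartan subspace of odd `so`. -/
def carSo (n : ℕ) : Car (Dat.so n) n where
  j a := Sum.inl (Sum.inl a)
  inj a b h := by simpa using h
  ne a b h := by cases h
  cov i := by
    rcases i with (a | a) | a
    · exact Or.inl ⟨a, rfl⟩
    · exact Or.inr (Or.inl ⟨a, rfl⟩)
    · exact Or.inr (Or.inr rfl)

theorem carSp_good (n : ℕ) : (carSp n).Good := by
  intro k
  rw [Car.res_chc]
  have hk : (k : ℕ) + 1 ≤ n := k.2
  have hcard : Fintype.card (Fin n ⊕ Fin n) - 2 * ((k : ℕ) + 1) = (n - (k + 1)) * 2 := by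
    rw [Fintype.card_sum, Fintype.card_fin]; omega
  rw [hcard, Fintype.prod_sum_type]
  have h1 : ∀ a, (carSp n).cx (fun a => (X a : MvPolynomial (Fin n) ℂ)) (Sum.inl a) = X a :=
    fun a => (carSp n).cx_j _ a
  have h2 : ∀ a, (carSp n).cx (fun a => (X a : MvPolynomial (Fin n) ℂ)) (Sum.inr a) = - X a :=
    fun a => ((carSp n).cx_p _ (Sum.inl a)).trans (by rw [h1])
  simp only [h1, h2]
  rw [prod_sq, Polynomial.coeff_expand_mul (by norm_num), vieta]

theorem carSo_good (n : ℕ) : (carSo n).Good := by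
  intro k
  rw [Car.res_chc]
  have hk : (k : ℕ) + 1 ≤ n := k.2
  have hcard : Fintype.card ((Fin n ⊕ Fin n) ⊕ Unit) - 2 * ((k : ℕ) + 1) =
      (n - (k + 1)) * 2 + 1 := by
    rw [Fintype.card_sum, Fintype.card_sum, Fintype.card_fin, Fintype.card_unit]; omega
  rw [hcard, Fintype.prod_sum_type, Fintype.prod_sum_type]
  have h1 : ∀ a, (carSo n).cx (fun a => (X a : MvPolynomial (Fin n) ℂ)) (Sum.inl (Sum.inl a)) =
      X a := fun a => (carSo n).cx_j _ a
  have h2 : ∀ a, (carSo n).cx (fun a => (X a : MvPolynomial (Fin n) ℂ)) (Sum.inl (Sum.inr a)) =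
      - X a := fun a => ((carSo n).cx_p _ (Sum.inl (Sum.inl a))).trans (by rw [h1])
  have h3 : ∀ u : Unit, (carSo n).cx (fun a => (X a : MvPolynomial (Fin n) ℂ)) (Sum.inr u) = 0 := by
    intro u
    have h4 := (carSo n).cx_p (fun a => (X a : MvPolynomial (Fin n) ℂ)) (Sum.inr u)
    have h5 : (Dat.so n).p (Sum.inr u) = Sum.inr u := rfl
    rw [h5] at h4
    exact self_eq_neg.mp h4
  simp only [h1, h2, h3]
  rw [prod_sq, map_zero, sub_zero, Finset.prod_const, Finset.card_univ, Fintype.card_unit,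
    pow_one, Polynomial.coeff_mul_X,
    Polynomial.coeff_expand_mul (by norm_num), vieta]

/-- **Chevalley's theorem for `sp`**: surjectivity. -/
theorem sp_exists (n : ℕ) (F : PM (Fin n ⊕ Fin n)) (h1 : (Dat.sp n).proj F = F)
    (h2 : ∀ A, (Dat.sp n).Mem A → ad A F = 0) :
    ∃ P : MvPolynomial (Fin n) ℂ, F = aeval (ys (Dat.sp n) n) P :=
  (carSp n).exists_aeval (Or.inl rfl) (carSp_good n) F h1 h2

/-- **Chevalley's theorem for `sp`**: algebraic independence. -/
theorem sp_algInd (n : ℕ) : AlgebraicIndependent ℂ (ys (Dat.sp n) n) :=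
  (carSp n).algInd (carSp_good n)

/-- **Chevalley's theorem for odd `so`**: surjectivity. -/
theorem so_exists (n : ℕ) (F : PM ((Fin n ⊕ Fin n) ⊕ Unit)) (h1 : (Dat.so n).proj F = F)
    (h2 : ∀ A, (Dat.so n).Mem A → ad A F = 0) :
    ∃ P : MvPolynomial (Fin n) ℂ, F = aeval (ys (Dat.so n) n) P :=
  (carSo n).exists_aeval (Or.inr ⟨Sum.inr (), rfl⟩) (carSo_good n) F h1 h2

/-- **Chevalley's theorem for odd `so`**: algebraic independence. -/
theorem so_algInd (n : ℕ) : AlgebraicIndependent ℂ (ys (Dat.so n) n) :=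
  (carSo n).algInd (carSo_good n)

end

end Vale.Agent.P286.H42
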