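import Mathlib

/-! Chevalley restriction, first step (abstract): an invariant polynomial which vanishes on the
Cartan subspace vanishes. -/

namespace Vale.Agent.P286.H42

open MvPolynomial

section A

variable {Φ T : Type*} [CommRing T] [Algebra ℂ T]

theorem der_mem (Δ : Derivation ℂ (MvPolynomial Φ T) (MvPolynomial Φ T))
    (hC : ∀ t, Δ (C t) ∈ idealOfVars Φ T) (hX : ∀ b, Δ (X b) ∈ idealOfVars Φ T)
    (f : MvPolynomial Φ T) : Δ f ∈ idealOfVars Φ T := by
  induction f using MvPolynomial.induction_on with
  | C a => exact hC a
  | add p q hp hq => rw [map_add]; exact Ideal.add_mem _ hp hq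
  | mul_X p b hp =>
    rw [Derivation.leibniz, smul_eq_mul, smul_eq_mul]
    exact Ideal.add_mem _ (Ideal.mul_mem_left _ _ (hX b)) (Ideal.mul_mem_left _ _ hp)

theorem der_pow_mem (Δ : Derivation ℂ (MvPolynomial Φ T) (MvPolynomial Φ T))
    (h : ∀ f, Δ f ∈ idealOfVars Φ T) (k : ℕ) :
    ∀ f ∈ idealOfVars Φ T ^ k, Δ f ∈ idealOfVars Φ T ^ k := by
  induction k with
  | zero => intro f _; simp
  | succ k ih =>
    intro f hf
    rw [pow_succ] at hf
    refine Submodule.mul_induction_on hf ?_ ?_
    · intro a ha b hb
      rw [Derivation.leibniz, smul_eq_mul, smul_eq_mul]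
      refine Ideal.add_mem _ ?_ ?_
      · rw [pow_succ]; exact Ideal.mul_mem_mul ha (h b)
      · rw [pow_succ']; exact Ideal.mul_mem_mul hb (ih a ha)
    · intro a b ha hb
      rw [map_add]; exact Ideal.add_mem _ ha hb

theorem restr_inj [IsDomain T] [CharZero T] [DecidableEq Φ]
    (D : Φ → Derivation ℂ (MvPolynomial Φ T) (MvPolynomial Φ T)) (l : Φ → T) (hl : ∀ a, l a ≠ 0)
    (h1 : ∀ a t, D a (C t) ∈ idealOfVars Φ T)
    (h2 : ∀ a b, D a (X b) - (if a = b then C (l a) else 0) ∈ idealOfVars Φ T)
    (f : MvPolynomial Φ T) (hf : ∀ a, D a f = 0) (h0 : constantCoeff f = 0) : f = 0 := by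
  have key : ∀ k : ℕ, f ∈ idealOfVars Φ T ^ (k + 1) := by
    intro k
    induction k with
    | zero =>
      rw [mem_pow_idealOfVars_iff']
      intro x hx
      have hx0 : x = 0 := by
        rw [← Finsupp.degree_eq_zero_iff]; omega
      subst hx0
      rw [← h0, constantCoeff_eq]
    | succ k ih =>
      have hp : ∀ a, C (l a) * pderiv a f ∈ idealOfVars Φ T ^ (k + 1) := by
        intro a
        let Δ : Derivation ℂ (MvPolynomial Φ T) (MvPolynomial Φ T) :=
          D a - (C (l a) : MvPolynomial Φ T) • (Derivation.restrictScalars ℂ (pderiv a))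
        have hΔ : ∀ g, Δ g = D a g - C (l a) * pderiv a g := fun g => by
          simp [Δ]
        have h3 : ∀ g, Δ g ∈ idealOfVars Φ T := by
          apply der_mem
          · intro t; rw [hΔ, pderiv_C, mul_zero, sub_zero]; exact h1 a t
          · intro b
            rw [hΔ]
            have := h2 a b
            by_cases hab : a = b
            · subst hab
              rw [if_pos rfl] at this
              rw [pderiv_X_self, mul_one]; exact this
            · rw [if_neg hab] at this
              rw [pderiv_X_of_ne (Ne.symm hab), mul_zero]; exact this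
        have h4 := der_pow_mem Δ h3 (k + 1) f ih
        rw [hΔ, hf a, zero_sub] at h4
        exact (Ideal.neg_mem_iff _).mp h4
      rw [mem_pow_idealOfVars_iff'] at ih ⊢
      intro x hx
      by_cases hxk : x.degree < k + 1
      · exact ih x hxk
      · have hdeg : x.degree = k + 1 := by omega
        have hne : x ≠ 0 := by
          rintro rfl
          simp at hdeg
        obtain ⟨a, ha⟩ : ∃ a, x a ≠ 0 := by
          by_contra hcon
          push Not at hcon
          exact hne (Finsupp.ext hcon)
        have hle : Finsupp.single a 1 ≤ x := by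
          rw [Finsupp.single_le_iff]; omega
        set s := x - Finsupp.single a 1 with hs
        have hsx : s + Finsupp.single a 1 = x := by
          rw [hs]; exact tsub_add_cancel_of_le hle
        have hsd : s.degree < k + 1 := by
          have := congrArg Finsupp.degree hsx
          rw [map_add, Finsupp.degree_single] at this
          omega
        have h5 := (mem_pow_idealOfVars_iff' _ _).mp (hp a) s hsd
        rw [coeff_C_mul, coeff_pderiv, hsx] at h5
        rcases mul_eq_zero.mp h5 with h6 | h6
        · exact absurd h6 (hl a)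
        · rcases mul_eq_zero.mp h6 with h7 | h7
          · exact h7
          · exfalso
            have : ((s a + 1 : ℕ) : T) = 0 := by push_cast; exact h7
            exact Nat.succ_ne_zero _ (Nat.cast_eq_zero.mp this)
  ext x
  rw [coeff_zero]
  exact (mem_pow_idealOfVars_iff' _ _).mp (key x.degree) x (Nat.lt_succ_self _)

end A

end Vale.Agent.P286.H42
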