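import Vale.Agent.P286.H374.ChevDefs

/-! Chevalley restriction, second step: an infinitesimally invariant polynomial is constant along
conjugation with unipotent one-parameter groups, hence its restriction to the Cartan subspace is
invariant under the reflections. -/

namespace Vale.Agent.P286.H42

open MvPolynomial Matrix
open Vale.Agent.P286.H374

noncomputable section

set_option linter.unusedSectionVars false

variable {I : Type} [Fintype I] [DecidableEq I]

/-- entrywise derivative -/
def dm (M : Matrix I I (Polynomial ℂ)) : Matrix I I (Polynomial ℂ) :=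
  M.map (fun p => Polynomial.derivative p)

theorem dm_apply (M : Matrix I I (Polynomial ℂ)) (i j : I) :
    dm M i j = Polynomial.derivative (M i j) := rfl

theorem dm_mul (M N : Matrix I I (Polynomial ℂ)) : dm (M * N) = dm M * N + M * dm N := by
  ext i j : 2
  simp only [dm_apply, Matrix.mul_apply, Matrix.add_apply, Polynomial.derivative_sum,
    Polynomial.derivative_mul, Finset.sum_add_distrib]

theorem dm_add (M N : Matrix I I (Polynomial ℂ)) : dm (M + N) = dm M + dm N := by
  ext i j : 2
  simp only [dm_apply, Matrix.add_apply, Polynomial.derivative_add]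

theorem dm_sub (M N : Matrix I I (Polynomial ℂ)) : dm (M - N) = dm M - dm N := by
  ext i j : 2
  simp only [dm_apply, Matrix.sub_apply, Polynomial.derivative_sub]

theorem dm_map_C (M : Matrix I I ℂ) : dm (M.map Polynomial.C) = 0 := by
  ext i j : 2
  simp [dm_apply]

theorem dm_smul_map_C (r : Polynomial ℂ) (M : Matrix I I ℂ) :
    dm (r • M.map Polynomial.C) = Polynomial.derivative r • M.map Polynomial.C := by
  ext i j : 2
  simp [dm_apply]

theorem dm_one : dm (1 : Matrix I I (Polynomial ℂ)) = 0 := by
  ext i j : 2
  by_cases h : i = j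
  · subst h; simp [dm_apply]
  · simp [dm_apply, Matrix.one_apply_ne h]

/-- A polynomial curve with `Y' = [A, Y]`. -/
theorem deriv_aeval (A : Matrix I I ℂ) (Y : Matrix I I (Polynomial ℂ))
    (hY : dm Y = A.map Polynomial.C * Y - Y * A.map Polynomial.C) (f : PM I) :
    Polynomial.derivative (aeval (fun a : I × I => Y a.1 a.2) f) =
      aeval (fun a : I × I => Y a.1 a.2) (ad A f) := by
  induction f using MvPolynomial.induction_on with
  | C a =>
    rw [← MvPolynomial.algebraMap_eq, AlgHom.commutes, Derivation.map_algebraMap, map_zero,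
      Polynomial.algebraMap_eq, Polynomial.derivative_C]
  | add p q hp hq => rw [map_add, map_add, map_add, map_add, hp, hq]
  | mul_X p a hp =>
    rw [map_mul, Polynomial.derivative_mul, hp, aeval_X, Derivation.leibniz, map_add, smul_eq_mul,
      smul_eq_mul, map_mul, map_mul, aeval_X, ad_X]
    have h1 : Polynomial.derivative (Y a.1 a.2) = aeval (fun a : I × I => Y a.1 a.2)
        (∑ k : I, (C (A a.1 k) * X (k, a.2) - C (A k a.2) * X (a.1, k))) := by
      have := congrFun (congrFun hY a.1) a.2
      rw [dm_apply] at this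
      rw [this]
      simp only [map_sum, map_sub, map_mul, aeval_X, Matrix.sub_apply, Matrix.mul_apply,
        Matrix.map_apply, Finset.sum_sub_distrib, MvPolynomial.aeval_C,
        Polynomial.algebraMap_eq]
      congr 1
      exact Finset.sum_congr rfl fun k _ => mul_comm _ _
    rw [h1]; ring

/-- Invariance under the unipotent one-parameter group of a nilpotent `A`. -/
theorem flow (A : Matrix I I ℂ) (hA : A * A * A = 0) (f : PM I) (hf : ad A f = 0)
    (X : Matrix I I ℂ) (s : ℂ) :
    eval (pt ((1 + s • A + (s ^ 2 / 2) • (A * A)) * X *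
      (1 - s • A + (s ^ 2 / 2) • (A * A)))) f = eval (pt X) f := by
  set c : Matrix I I ℂ → Matrix I I (Polynomial ℂ) := fun M => M.map Polynomial.C with hc
  have cmul : ∀ M N, c (M * N) = c M * c N := fun M N => by
    simp only [hc]; exact Matrix.map_mul
  have c0 : c 0 = 0 := by ext i j : 2; simp [hc]
  set t : Polynomial ℂ := Polynomial.X with ht
  set h : Polynomial ℂ := Polynomial.C (1 / 2) * Polynomial.X ^ 2 with hh
  have dt : Polynomial.derivative t = 1 := Polynomial.derivative_X
  have dh : Polynomial.derivative h = t := by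
    rw [hh, Polynomial.derivative_C_mul, Polynomial.derivative_X_pow, ht]
    simp only [Nat.cast_ofNat, Nat.add_one_sub_one, pow_one]
    rw [← mul_assoc, ← Polynomial.C_mul]
    norm_num
  set U : Matrix I I (Polynomial ℂ) := 1 + t • c A + h • c (A * A) with hU
  set V : Matrix I I (Polynomial ℂ) := 1 - t • c A + h • c (A * A) with hV
  have c3 : c A * c (A * A) = 0 := by rw [← cmul, ← mul_assoc, hA, c0]
  have c3' : c (A * A) * c A = 0 := by rw [← cmul, hA, c0]
  have e1 : (A * A).map Polynomial.C = c A * c A := cmul A A
  have dU : dm U = c A * U := by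
    rw [hU, dm_add, dm_add, dm_one, dm_smul_map_C, dm_smul_map_C, dt, dh, mul_add, mul_add,
      Matrix.mul_smul, Matrix.mul_smul, mul_one, c3, smul_zero, one_smul, e1]
    simp only [zero_add, add_zero]
    rfl
  have dV : dm V = - (V * c A) := by
    rw [hV, dm_add, dm_sub, dm_one, dm_smul_map_C, dm_smul_map_C, dt, dh, add_mul, sub_mul,
      Matrix.smul_mul, Matrix.smul_mul, one_mul, c3', smul_zero, one_smul, e1]
    simp only [add_zero, zero_sub, neg_sub]
    rw [neg_add_eq_sub]
  have hY : dm (U * c X * V) = A.map Polynomial.C * (U * c X * V) -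
      (U * c X * V) * A.map Polynomial.C := by
    rw [dm_mul, dm_mul, dU, dV]
    have : dm (c X) = 0 := dm_map_C X
    rw [this]
    simp only [mul_zero, add_zero, mul_neg, mul_assoc]
    rfl
  have h1 := deriv_aeval A _ hY f
  rw [hf, map_zero] at h1
  obtain ⟨w, hw⟩ : ∃ w, aeval (fun a : I × I => (U * c X * V) a.1 a.2) f = Polynomial.C w :=
    ⟨_, Polynomial.eq_C_of_derivative_eq_zero h1⟩
  have key : ∀ z : ℂ, eval (pt ((1 + z • A + (z ^ 2 / 2) • (A * A)) * X *
      (1 - z • A + (z ^ 2 / 2) • (A * A)))) f = w := by
    intro z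
    have h2 := congrArg (Polynomial.eval z) hw
    rw [Polynomial.eval_C] at h2
    rw [← h2]
    have h3 : (Polynomial.evalRingHom z).comp
        ((aeval (fun a : I × I => (U * c X * V) a.1 a.2) : PM I →ₐ[ℂ] Polynomial ℂ) :
          PM I →+* Polynomial ℂ) =
        eval (pt ((1 + z • A + (z ^ 2 / 2) • (A * A)) * X *
          (1 - z • A + (z ^ 2 / 2) • (A * A)))) := by
      apply MvPolynomial.ringHom_ext
      · intro r
        simp
      · rintro ⟨i, j⟩
        simp only [RingHom.comp_apply, RingHom.coe_coe, aeval_X, eval_X, pt]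
        have hev : ∀ M : Matrix I I (Polynomial ℂ), Polynomial.evalRingHom z (M i j) =
          (M.map (Polynomial.evalRingHom z)) i j := fun _ => rfl
        rw [hev, Matrix.map_mul, Matrix.map_mul]
        have hcM : ∀ M, (c M).map (Polynomial.evalRingHom z) = M := by
          intro M; ext a b; simp [hc]
        have hsm : ∀ (r : Polynomial ℂ) M, (r • c M).map (Polynomial.evalRingHom z) =
            (Polynomial.eval z r) • M := by
          intro r M; ext a b; simp [hc]
        have hUz : U.map (Polynomial.evalRingHom z) = 1 + z • A + (z ^ 2 / 2) • (A * A) := by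
          rw [hU, Matrix.map_add _ (map_add _), Matrix.map_add _ (map_add _), hsm, hsm,
            Matrix.map_one _ (map_zero _) (map_one _), ht, hh]
          simp only [Polynomial.eval_X, Polynomial.eval_mul, Polynomial.eval_C,
            Polynomial.eval_pow]
          congr 2; ring
        have hVz : V.map (Polynomial.evalRingHom z) = 1 - z • A + (z ^ 2 / 2) • (A * A) := by
          rw [hV, Matrix.map_add _ (map_add _), Matrix.map_sub _ (map_sub _), hsm, hsm,
            Matrix.map_one _ (map_zero _) (map_one _), ht, hh]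
          simp only [Polynomial.eval_X, Polynomial.eval_mul, Polynomial.eval_C,
            Polynomial.eval_pow]
          congr 2; ring
        rw [hUz, hVz, hcM]
    exact (RingHom.congr_fun h3 f).symm
  rw [key s]
  have := key 0
  rw [← this]
  simp

/-- Two polynomial functions on a line agreeing off `0` agree at `0`. -/
theorem line_zero (F : PM I) (D D' f : Matrix I I ℂ)
    (h : ∀ z : ℂ, z ≠ 0 → eval (pt (D + z • f)) F = eval (pt (D' + z • f)) F) :
    eval (pt D) F = eval (pt D') F := by
  set L : Matrix I I ℂ → PM I →ₐ[ℂ] Polynomial ℂ := fun M =>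
    aeval (fun a : I × I => Polynomial.C (M a.1 a.2) + Polynomial.X * Polynomial.C (f a.1 a.2))
    with hL
  have hev : ∀ (M : Matrix I I ℂ) (z : ℂ), Polynomial.eval z (L M F) = eval (pt (M + z • f)) F := by
    intro M z
    have h3 : (Polynomial.evalRingHom z).comp (L M : PM I →+* Polynomial ℂ) =
        eval (pt (M + z • f)) := by
      apply MvPolynomial.ringHom_ext
      · intro r
        simp [hL]
      · rintro ⟨i, j⟩
        simp only [hL, pt, RingHom.comp_apply, RingHom.coe_coe, aeval_X, eval_X, map_add, map_mul,
          Polynomial.coe_evalRingHom, Polynomial.eval_C, Polynomial.eval_X, Matrix.add_apply,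
          Matrix.smul_apply, smul_eq_mul]
    exact RingHom.congr_fun h3 F
  have heq : L D F = L D' F := by
    refine Polynomial.eq_of_infinite_eval_eq _ _ ?_
    refine Set.Infinite.mono (s := {z : ℂ | z ≠ 0}) ?_ ?_
    · intro z hz
      change Polynomial.eval z (L D F) = Polynomial.eval z (L D' F)
      rw [hev, hev]; exact h z hz
    · have : {z : ℂ | z ≠ 0} = ({0} : Set ℂ)ᶜ := by ext z; simp
      rw [this]
      exact (Set.finite_singleton (0 : ℂ)).infinite_compl
  have h1 := hev D 0
  have h2 := hev D' 0
  rw [zero_smul, add_zero] at h1 h2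
  rw [← h1, ← h2, heq]

/-- The reflection in an `sl2`-triple `e, f, h` with `[D, e] = a e`. -/
theorem refl_pt (e f h D : Matrix I I ℂ) (a : ℂ) (he3 : e * e * e = 0)
    (hef : e * f = f * e + h) (hhe : h * e = e * h + (2 : ℂ) • e)
    (hDe : D * e = e * D + a • e) (F : PM I) (hF : ad e F = 0) :
    eval (pt D) F = eval (pt (D - a • h)) F := by
  apply line_zero F D (D - a • h) f
  intro z hz
  set s : ℂ := - a / z with hs
  have hsz : s * z = - a := by rw [hs]; field_simp
  have hflow := flow e he3 F hF (D + z • f) s
  have hUV : (1 + s • e + (s ^ 2 / 2) • (e * e)) * (1 - s • e + (s ^ 2 / 2) • (e * e)) = 1 := by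
    have h3 : e * (e * e) = 0 := by rw [← mul_assoc, he3]
    have h4 : e * e * (e * e) = 0 := by rw [← mul_assoc, he3, zero_mul]
    simp only [add_mul, mul_add, mul_sub, one_mul, mul_one, Matrix.smul_mul, Matrix.mul_smul,
      he3, h3, h4, smul_zero, add_zero]
    module
  -- `h * e * e = 2 e * e`
  have hhe2 : h * (e * e) = (2 : ℂ) • (e * e) := by
    have h0 : e * e * e * f = f * (e * e * e) + (h * (e * e) + e * h * e + e * e * h) := by
      calc e * e * e * f = e * e * (e * f) := by noncomm_ring
        _ = e * e * (f * e + h) := by rw [hef]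
        _ = e * (e * f) * e + e * e * h := by noncomm_ring
        _ = e * (f * e + h) * e + e * e * h := by rw [hef]
        _ = (e * f) * e * e + e * h * e + e * e * h := by noncomm_ring
        _ = (f * e + h) * e * e + e * h * e + e * e * h := by rw [hef]
        _ = _ := by noncomm_ring
    rw [he3, zero_mul, mul_zero, zero_add] at h0
    have h1 : e * h = h * e - (2 : ℂ) • e := by rw [hhe]; abel
    have h2 : e * h * e = h * (e * e) - (2 : ℂ) • (e * e) := by
      rw [h1, sub_mul, Matrix.smul_mul, mul_assoc]
    have h3 : e * e * h = h * (e * e) - (4 : ℂ) • (e * e) := by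
      rw [mul_assoc, h1, mul_sub, ← mul_assoc, h2, Matrix.mul_smul]
      module
    rw [h2, h3] at h0
    have h5 : (3 : ℂ) • (h * (e * e)) = (6 : ℂ) • (e * e) := by
      have := h0.symm
      rw [← sub_eq_zero] at this ⊢
      rw [← this]
      module
    have h6 := congrArg (fun M => (1 / 3 : ℂ) • M) h5
    simp only [smul_smul] at h6
    norm_num at h6
    exact h6
  have hconj : (1 + s • e + (s ^ 2 / 2) • (e * e)) * (D + z • f) =
      (D - a • h + z • f) * (1 + s • e + (s ^ 2 / 2) • (e * e)) := by
    have hD1 : e * D = D * e - a • e := by rw [hDe]; abel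
    have hD2 : e * e * D = D * (e * e) - (2 * a) • (e * e) := by
      rw [mul_assoc, hD1, mul_sub, ← mul_assoc, hD1, Matrix.mul_smul, sub_mul, Matrix.smul_mul,
        mul_assoc]
      module
    have h1 : e * h = h * e - (2 : ℂ) • e := by rw [hhe]; abel
    have hf2 : e * e * f = f * (e * e) + (2 : ℂ) • (h * e) - (2 : ℂ) • e := by
      rw [mul_assoc, hef, mul_add, ← mul_assoc, hef, h1, add_mul, mul_assoc]
      module
    have hL : (1 + s • e + (s ^ 2 / 2) • (e * e)) * (D + z • f) =
        D + z • f + s • (e * D) + (s * z) • (e * f) + (s ^ 2 / 2) • (e * e * D) +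
          (s ^ 2 / 2 * z) • (e * e * f) := by
      simp only [add_mul, mul_add, one_mul, Matrix.smul_mul, Matrix.mul_smul]
      module
    have hR : (D - a • h + z • f) * (1 + s • e + (s ^ 2 / 2) • (e * e)) =
        D - a • h + z • f + s • (D * e) - (s * a) • (h * e) + (s * z) • (f * e) +
          (s ^ 2 / 2) • (D * (e * e)) - (s ^ 2 / 2 * a) • (h * (e * e)) +
          (s ^ 2 / 2 * z) • (f * (e * e)) := by
      simp only [add_mul, mul_add, sub_mul, mul_one, Matrix.smul_mul, Matrix.mul_smul]
      module
    rw [hL, hR, hhe2, hD1, hD2, hf2, hef]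
    have ha : a = - (s * z) := by rw [hsz]; ring
    rw [ha]
    module
  have hfin : (1 + s • e + (s ^ 2 / 2) • (e * e)) * (D + z • f) *
      (1 - s • e + (s ^ 2 / 2) • (e * e)) = D - a • h + z • f := by
    rw [hconj, mul_assoc, hUV, mul_one]
  rw [hfin] at hflow
  exact hflow.symm

end

end Vale.Agent.P286.H42
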