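import Vale.Agent.P286.H42.ChevB

/-! Chevalley restriction: the reflections of the Weyl group of `sp` and `so`. -/

namespace Vale.Agent.P286.H42

open MvPolynomial Matrix
open Vale.Agent.P286.H374

noncomputable section

set_option linter.unusedSectionVars false

variable {I : Type} [Fintype I] [DecidableEq I]

theorem pt_diagonal (x : I → ℂ) : pt (Matrix.diagonal x) = dg x := by
  funext a
  simp only [pt, dg, Matrix.diagonal_apply]

theorem diag_mul_single (x : I → ℂ) (i j : I) (c : ℂ) :
    Matrix.diagonal x * Matrix.single i j c = x i • Matrix.single i j c := by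
  ext a b
  simp only [Matrix.diagonal_mul, Matrix.smul_apply, Matrix.single_apply, smul_eq_mul]
  by_cases h : i = a ∧ j = b
  · rw [if_pos h, h.1]
  · rw [if_neg h]; simp

theorem single_mul_diag (x : I → ℂ) (i j : I) (c : ℂ) :
    Matrix.single i j c * Matrix.diagonal x = x j • Matrix.single i j c := by
  ext a b
  simp only [Matrix.mul_diagonal, Matrix.smul_apply, Matrix.single_apply, smul_eq_mul]
  by_cases h : i = a ∧ j = b
  · rw [if_pos h, h.2, mul_comm]
  · rw [if_neg h]; simp

theorem ss_same (i j k : I) (c d : ℂ) :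
    Matrix.single i j c * Matrix.single j k d = Matrix.single i k (c * d) := by
  simp

theorem ss_ne (i j k l : I) (h : j ≠ k) (c d : ℂ) :
    Matrix.single i j c * Matrix.single k l d = 0 :=
  Matrix.single_mul_single_of_ne _ _ _ _ h _

variable (S : Dat I)

theorem pinj {i j : I} (h : S.p i = S.p j) : i = j := by
  rw [← S.pp i, h, S.pp]

/-- root vectors -/
theorem mem_root (i j : I) :
    S.Mem (Matrix.single i j 1 - (S.e i * S.e j) • Matrix.single (S.p j) (S.p i) 1) := by
  intro a b
  simp only [Matrix.sub_apply, Matrix.smul_apply, Matrix.single_apply, smul_eq_mul]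
  have hP : (S.p j = S.p b ∧ S.p i = S.p a) ↔ (i = a ∧ j = b) :=
    ⟨fun h => ⟨pinj S h.2, pinj S h.1⟩, fun h => ⟨by rw [h.2], by rw [h.1]⟩⟩
  have hQ : (i = S.p b ∧ j = S.p a) ↔ (S.p j = a ∧ S.p i = b) :=
    ⟨fun h => ⟨by rw [h.2, S.pp], by rw [h.1, S.pp]⟩,
      fun h => ⟨by rw [← h.2, S.pp], by rw [← h.1, S.pp]⟩⟩
  simp only [hP, hQ]
  by_cases h1 : i = a ∧ j = b
  · by_cases h2 : S.p j = a ∧ S.p i = b
    · rw [if_pos h1, if_pos h2, ← h1.1, ← h1.2]
      linear_combination (-1 : ℂ) * S.e_sq i j
    · rw [if_pos h1, if_neg h2, ← h1.1, ← h1.2]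
      linear_combination (-1 : ℂ) * S.e_sq i j
  · by_cases h2 : S.p j = a ∧ S.p i = b
    · rw [if_neg h1, if_pos h2, ← h2.1, ← h2.2, S.e_pp]
      ring
    · rw [if_neg h1, if_neg h2]
      ring

/-- Reflection in the root `x i - x j`. -/
theorem refl_swap (F : PM I) (hF : ∀ A, S.Mem A → ad A F = 0) (i j : I) (hij : i ≠ j)
    (h1 : i ≠ S.p j) (h2 : S.p i ≠ i) (h3 : S.p j ≠ j) (x : I → ℂ) (hx : ∀ a, x (S.p a) = - x a) :
    eval (dg x) F = eval (dg (fun a => x a - (x i - x j) *
      ((if a = i then 1 else 0) - (if a = j then 1 else 0) + (if a = S.p j then 1 else 0)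
        - (if a = S.p i then 1 else 0)))) F := by
  set c : ℂ := S.e i * S.e j with hc
  have hcc : c * c = 1 := S.e_sq i j
  set y : I → ℂ := fun a => (if a = i then 1 else 0) - (if a = j then 1 else 0) +
    (if a = S.p j then 1 else 0) - (if a = S.p i then 1 else 0) with hy
  have h1' : S.p i ≠ j := fun h => h1 (by rw [← h, S.pp])
  have hpij : S.p i ≠ S.p j := fun h => hij (pinj S h)
  set e : Matrix I I ℂ := Matrix.single i j 1 - c • Matrix.single (S.p j) (S.p i) 1 with he
  set f : Matrix I I ℂ := Matrix.single j i 1 - c • Matrix.single (S.p i) (S.p j) 1 with hf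
  have hee : e * e = 0 := by
    rw [he]
    simp only [sub_mul, mul_sub, Matrix.smul_mul, Matrix.mul_smul]
    rw [ss_ne _ _ _ _ hij.symm, ss_ne _ _ _ _ h3.symm, ss_ne _ _ _ _ h2, ss_ne _ _ _ _ hpij]
    simp
  have key := refl_pt e f (Matrix.diagonal y) (Matrix.diagonal x) (x i - x j)
    (by rw [hee, zero_mul]) ?_ ?_ ?_ F (hF e (mem_root S i j))
  · rw [pt_diagonal] at key
    rw [key]
    have : Matrix.diagonal x - (x i - x j) • Matrix.diagonal y =
        Matrix.diagonal (fun a => x a - (x i - x j) * y a) := by
      ext a b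
      simp only [Matrix.sub_apply, Matrix.smul_apply, Matrix.diagonal_apply, smul_eq_mul]
      by_cases hab : a = b
      · rw [if_pos hab, if_pos hab, if_pos hab]
      · rw [if_neg hab, if_neg hab, if_neg hab]; ring
    rw [this, pt_diagonal]
  · -- e f = f e + h
    rw [he, hf]
    simp only [sub_mul, mul_sub, Matrix.smul_mul, Matrix.mul_smul]
    rw [ss_same, ss_same, ss_same, ss_same, ss_ne _ _ _ _ h1', ss_ne _ _ _ _ h1'.symm,
      ss_ne _ _ _ _ h1, ss_ne _ _ _ _ h1.symm]
    have hd : Matrix.diagonal y = Matrix.single i i 1 - Matrix.single j j 1 +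
        Matrix.single (S.p j) (S.p j) 1 - Matrix.single (S.p i) (S.p i) 1 := by
      ext a b
      simp only [hy, Matrix.sub_apply, Matrix.add_apply, Matrix.single_apply,
        Matrix.diagonal_apply]
      by_cases hab : a = b
      · subst hab
        simp only [and_self, if_true, eq_comm]
      · rw [if_neg hab]
        have : ∀ u : I, ¬ (u = a ∧ u = b) := fun u hu => hab (hu.1.symm.trans hu.2)
        simp only [this, if_false]
        ring
    rw [hd]
    simp only [smul_zero, sub_zero, smul_smul, hcc, one_smul, mul_one, smul_sub, smul_add]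
    abel
  · -- h e = e h + 2 e
    rw [he]
    simp only [mul_sub, sub_mul, Matrix.smul_mul, Matrix.mul_smul, diag_mul_single,
      single_mul_diag]
    have y1 : y i = 1 := by
      simp only [hy, if_true, if_neg hij, if_neg h1, if_neg h2.symm]; ring
    have y2 : y j = -1 := by
      simp only [hy, if_true, if_neg hij.symm, if_neg h3.symm, if_neg h1'.symm]; ring
    have y3 : y (S.p j) = 1 := by
      simp only [hy, if_true, if_neg h1.symm, if_neg h3, if_neg hpij.symm]; ring
    have y4 : y (S.p i) = -1 := by
      simp only [hy, if_true, if_neg h2, if_neg h1', if_neg hpij]; ring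
    rw [y1, y2, y3, y4]
    module
  · rw [he]
    simp only [mul_sub, sub_mul, Matrix.smul_mul, Matrix.mul_smul, diag_mul_single,
      single_mul_diag, hx]
    module

/-- Reflection in a long root of `sp`. -/
theorem refl_long (hk : S.k = -1) (F : PM I) (hF : ∀ A, S.Mem A → ad A F = 0) (i : I)
    (h2 : S.p i ≠ i) (x : I → ℂ) (hx : ∀ a, x (S.p a) = - x a) :
    eval (dg x) F = eval (dg (fun a => x a - (2 * x i) *
      ((if a = i then 1 else 0) - (if a = S.p i then 1 else 0)))) F := by
  set y : I → ℂ := fun a => (if a = i then 1 else 0) - (if a = S.p i then 1 else 0) with hy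
  set e : Matrix I I ℂ := Matrix.single i (S.p i) 1 with he
  set f : Matrix I I ℂ := Matrix.single (S.p i) i 1 with hf
  have hee : e * e = 0 := by rw [he]; exact ss_ne _ _ _ _ h2 _ _
  have hmem : S.Mem e := by
    have h := mem_root S i (S.p i)
    rw [S.pp] at h
    intro a b
    have := h a b
    simp only [Matrix.sub_apply, Matrix.smul_apply, smul_eq_mul] at this
    have hc : S.e i * S.e (S.p i) = -1 := by
      rw [S.ek, hk]; linear_combination (-1 : ℂ) * S.ee i
    rw [hc] at this
    linear_combination (1 / 2 : ℂ) * this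
  have key := refl_pt e f (Matrix.diagonal y) (Matrix.diagonal x) (2 * x i)
    (by rw [hee, zero_mul]) ?_ ?_ ?_ F (hF e hmem)
  · rw [pt_diagonal] at key
    rw [key]
    have : Matrix.diagonal x - (2 * x i) • Matrix.diagonal y =
        Matrix.diagonal (fun a => x a - (2 * x i) * y a) := by
      ext a b
      simp only [Matrix.sub_apply, Matrix.smul_apply, Matrix.diagonal_apply, smul_eq_mul]
      by_cases hab : a = b
      · rw [if_pos hab, if_pos hab, if_pos hab]
      · rw [if_neg hab, if_neg hab, if_neg hab]; ring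
    rw [this, pt_diagonal]
  · rw [he, hf, ss_same, ss_same]
    have hd : Matrix.diagonal y = Matrix.single i i 1 - Matrix.single (S.p i) (S.p i) 1 := by
      ext a b
      simp only [hy, Matrix.sub_apply, Matrix.single_apply, Matrix.diagonal_apply]
      by_cases hab : a = b
      · subst hab
        simp only [and_self, if_true, eq_comm]
      · rw [if_neg hab]
        have : ∀ u : I, ¬ (u = a ∧ u = b) := fun u hu => hab (hu.1.symm.trans hu.2)
        simp only [this, if_false]
        ring
    rw [hd, mul_one]
    abel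
  · rw [he]
    simp only [diag_mul_single, single_mul_diag]
    have y1 : y i = 1 := by
      simp only [hy, if_true, if_neg h2.symm]; ring
    have y4 : y (S.p i) = -1 := by
      simp only [hy, if_true, if_neg h2]; ring
    rw [y1, y4]
    module
  · rw [he]
    simp only [diag_mul_single, single_mul_diag, hx]
    module

/-- Reflection in a short root of odd `so`; `o` is the fixed index. -/
theorem refl_short (F : PM I) (hF : ∀ A, S.Mem A → ad A F = 0) (i o : I)
    (ho : S.p o = o) (h2 : S.p i ≠ i) (x : I → ℂ) (hx : ∀ a, x (S.p a) = - x a) :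
    eval (dg x) F = eval (dg (fun a => x a - (2 * x i) *
      ((if a = i then 1 else 0) - (if a = S.p i then 1 else 0)))) F := by
  have hio : i ≠ o := fun h => h2 (by rw [h, ho])
  have hpio : S.p i ≠ o := fun h => hio (pinj S (h.trans ho.symm))
  have hxo : x o = 0 := by
    have := hx o
    rw [ho] at this
    linear_combination (1 / 2 : ℂ) * this
  set c : ℂ := S.e i * S.e o with hc
  have hcc : c * c = 1 := S.e_sq i o
  set y : I → ℂ := fun a => 2 * ((if a = i then 1 else 0) - (if a = S.p i then 1 else 0)) with hy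
  set e : Matrix I I ℂ := Matrix.single i o 1 - c • Matrix.single o (S.p i) 1 with he
  set f : Matrix I I ℂ := (2 : ℂ) • (Matrix.single o i 1 - c • Matrix.single (S.p i) o 1) with hf
  have hee : e * e = - c • Matrix.single i (S.p i) 1 := by
    rw [he]
    simp only [sub_mul, mul_sub, Matrix.smul_mul, Matrix.mul_smul]
    rw [ss_ne _ _ _ _ hio.symm, ss_same, ss_ne _ _ _ _ h2, ss_ne _ _ _ _ hpio, mul_one]
    module
  have he3 : e * e * e = 0 := by
    rw [hee, he, Matrix.smul_mul, mul_sub, Matrix.mul_smul, ss_ne _ _ _ _ h2,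
      ss_ne _ _ _ _ hpio]
    simp
  have hmem : S.Mem e := by
    have h := mem_root S i o
    rw [ho] at h
    exact h
  have key := refl_pt e f (Matrix.diagonal y) (Matrix.diagonal x) (x i)
    he3 ?_ ?_ ?_ F (hF e hmem)
  · rw [pt_diagonal] at key
    rw [key]
    have : Matrix.diagonal x - (x i) • Matrix.diagonal y =
        Matrix.diagonal (fun a => x a - (2 * x i) *
          ((if a = i then 1 else 0) - (if a = S.p i then 1 else 0))) := by
      ext a b
      simp only [Matrix.sub_apply, Matrix.smul_apply, Matrix.diagonal_apply, smul_eq_mul, hy]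
      by_cases hab : a = b
      · rw [if_pos hab, if_pos hab, if_pos hab]; ring
      · rw [if_neg hab, if_neg hab, if_neg hab]; ring
    rw [this, pt_diagonal]
  · rw [he, hf]
    simp only [sub_mul, mul_sub, Matrix.smul_mul, Matrix.mul_smul, smul_sub]
    rw [ss_same, ss_same, ss_same, ss_same, ss_ne _ _ _ _ hpio, ss_ne _ _ _ _ hpio.symm,
      ss_ne _ _ _ _ hio, ss_ne _ _ _ _ hio.symm]
    have hd : Matrix.diagonal y = (2 : ℂ) • (Matrix.single i i 1 -
        Matrix.single (S.p i) (S.p i) 1) := by
      ext a b
      simp only [hy, Matrix.sub_apply, Matrix.smul_apply, Matrix.single_apply,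
        Matrix.diagonal_apply, smul_eq_mul]
      by_cases hab : a = b
      · subst hab
        simp only [and_self, if_true, eq_comm]
      · rw [if_neg hab]
        have : ∀ u : I, ¬ (u = a ∧ u = b) := fun u hu => hab (hu.1.symm.trans hu.2)
        simp only [this, if_false]
        ring
    rw [hd]
    simp only [smul_zero, sub_zero, mul_one]
    have h4 : ∀ M : Matrix I I ℂ, c • c • M = M := fun M => by rw [smul_smul, hcc, one_smul]
    simp only [smul_sub, h4, smul_comm (2 : ℂ) c]
    module
  · rw [he]
    simp only [mul_sub, sub_mul, Matrix.smul_mul, Matrix.mul_smul, diag_mul_single,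
      single_mul_diag]
    have y1 : y i = 2 := by
      simp only [hy, if_true, if_neg h2.symm]; ring
    have y4 : y (S.p i) = -2 := by
      simp only [hy, if_true, if_neg h2]; ring
    have y5 : y o = 0 := by
      simp only [hy, if_neg hio.symm, if_neg hpio.symm]; ring
    rw [y1, y4, y5]
    module
  · rw [he]
    simp only [mul_sub, sub_mul, Matrix.smul_mul, Matrix.mul_smul, diag_mul_single,
      single_mul_diag, hx, hxo]
    module

end

end Vale.Agent.P286.H42
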