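import Mathlib

/-! Signed symmetric polynomials are the polynomials in the elementary symmetric functions of the
squares. -/

namespace Vale.Agent.P286.H42

open MvPolynomial

noncomputable section

/-- sign change of one variable -/
def sgc {n : ℕ} (i : Fin n) : MvPolynomial (Fin n) ℂ →ₐ[ℂ] MvPolynomial (Fin n) ℂ :=
  aeval fun j => if j = i then - X j else X j

theorem sgc_monomial {n : ℕ} (i : Fin n) (s : Fin n →₀ ℕ) (c : ℂ) :
    sgc i (monomial s c) = monomial s ((-1) ^ (s i) * c) := by
  rw [sgc, aeval_monomial, monomial_eq (s := s) (a := (-1) ^ (s i) * c), C_mul,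
    MvPolynomial.algebraMap_eq, mul_comm (C ((-1 : ℂ) ^ s i)) (C c), mul_assoc]
  congr 1
  have h1 : (fun (j : Fin n) (k : ℕ) => (if j = i then - X j else X j :
      MvPolynomial (Fin n) ℂ) ^ k) = fun j k => (C (if j = i then (-1 : ℂ) else 1)) ^ k * X j ^ k := by
    funext j k
    rw [← mul_pow]
    by_cases hj : j = i
    · rw [if_pos hj, if_pos hj]; simp
    · rw [if_neg hj, if_neg hj]; simp
  have h2 : (s.prod fun (j : Fin n) (k : ℕ) => (if j = i then - X j else X j :
      MvPolynomial (Fin n) ℂ) ^ k) =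
      (s.prod fun j k => (C (if j = i then (-1 : ℂ) else 1)) ^ k) * s.prod fun j k => X j ^ k := by
    rw [← Finsupp.prod_mul, ← h1]
  rw [h2]
  congr 1
  rw [Finsupp.prod_fintype _ _ (fun _ => pow_zero _)]
  rw [Finset.prod_eq_single i]
  · rw [if_pos rfl, ← C_pow]
  · intro j _ hj; rw [if_neg hj]; simp
  · intro h; exact absurd (Finset.mem_univ _) h

theorem coeff_sgc {n : ℕ} (i : Fin n) (q : MvPolynomial (Fin n) ℂ) (s : Fin n →₀ ℕ) :
    coeff s (sgc i q) = (-1) ^ (s i) * coeff s q := by
  induction q using MvPolynomial.induction_on' with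
  | monomial u c =>
    rw [sgc_monomial, coeff_monomial, coeff_monomial]
    by_cases h : u = s
    · rw [if_pos h, if_pos h, h]
    · rw [if_neg h, if_neg h, mul_zero]
  | add p q hp hq => rw [map_add, coeff_add, coeff_add, hp, hq, mul_add]

theorem eval_sgc {n : ℕ} (i : Fin n) (x : Fin n → ℂ) (q : MvPolynomial (Fin n) ℂ) :
    eval x (sgc i q) = eval (Function.update x i (- x i)) q := by
  have : (eval x).comp (sgc i : MvPolynomial (Fin n) ℂ →+* MvPolynomial (Fin n) ℂ) =
      eval (Function.update x i (- x i)) := by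
    apply MvPolynomial.ringHom_ext
    · intro r; simp
    · intro j
      simp only [sgc, RingHom.comp_apply, RingHom.coe_coe, aeval_X, eval_X]
      by_cases hj : j = i
      · subst hj; simp
      · simp [hj]
  exact RingHom.congr_fun this q

theorem exists_expand {n : ℕ} (q : MvPolynomial (Fin n) ℂ)
    (h : ∀ (i : Fin n) (x : Fin n → ℂ), eval x q = eval (Function.update x i (- x i)) q) :
    ∃ q' : MvPolynomial (Fin n) ℂ, q = expand 2 q' := by
  have h1 : ∀ i, sgc i q = q := by
    intro i
    apply MvPolynomial.funext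
    intro x
    rw [eval_sgc, ← h]
  have h2 : ∀ s ∈ q.support, ∀ i, 2 ∣ s i := by
    intro s hs i
    by_contra hodd
    have h3 := congrArg (coeff s) (h1 i)
    rw [coeff_sgc, Odd.neg_one_pow (Nat.not_even_iff_odd.mp fun he => hodd he.two_dvd)] at h3
    rw [mem_support_iff] at hs
    apply hs
    linear_combination (-1 / 2 : ℂ) * h3
  refine ⟨∑ s ∈ q.support, monomial (s.mapRange (fun k => k / 2) (by simp)) (coeff s q), ?_⟩
  rw [map_sum]
  conv_lhs => rw [q.as_sum]
  refine Finset.sum_congr rfl fun s hs => ?_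
  rw [expand_monomial]
  have h3 : 2 • s.mapRange (fun k => k / 2) (by simp) = s := by
    ext i
    rw [Finsupp.smul_apply, Finsupp.mapRange_apply, smul_eq_mul]
    exact Nat.mul_div_cancel' (h2 s hs i)
  rw [h3]

theorem isSymmetric_of_swap {n : ℕ} (q : MvPolynomial (Fin n) ℂ)
    (h : ∀ (i j : Fin n) (x : Fin n → ℂ), i ≠ j → eval x q = eval (x ∘ Equiv.swap i j) q) :
    q.IsSymmetric := by
  intro e
  induction e using Equiv.Perm.swap_induction_on with
  | one => simp
  | swap_mul f i j hij ih =>
    have h1 : rename (Equiv.swap i j * f : Equiv.Perm (Fin n)) q =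
        rename (Equiv.swap i j) (rename f q) := by
      rw [rename_rename]; rfl
    rw [h1, ih]
    apply MvPolynomial.funext
    intro x
    rw [eval_rename]
    exact (h i j x hij).symm

/-- the elementary symmetric functions of the squares -/
def esq (n : ℕ) (k : Fin n) : MvPolynomial (Fin n) ℂ := expand 2 (esymm (Fin n) ℂ (k + 1))

theorem exists_aeval_esq {n : ℕ} (q : MvPolynomial (Fin n) ℂ)
    (hs : ∀ (i j : Fin n) (x : Fin n → ℂ), i ≠ j → eval x q = eval (x ∘ Equiv.swap i j) q)
    (h : ∀ (i : Fin n) (x : Fin n → ℂ), eval x q = eval (Function.update x i (- x i)) q) :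
    ∃ P : MvPolynomial (Fin n) ℂ, q = aeval (esq n) P := by
  obtain ⟨q', hq'⟩ := exists_expand q h
  have hsym : q'.IsSymmetric := by
    intro e
    apply expand_injective (show 0 < 2 by norm_num)
    rw [← rename_expand, ← hq']
    exact isSymmetric_of_swap q hs e
  obtain ⟨P, hP⟩ := (esymmAlgHom_fin_bijective ℂ n).2 ⟨q', hsym⟩
  refine ⟨P, ?_⟩
  have h1 := congrArg Subtype.val hP
  rw [esymmAlgHom_apply] at h1
  change _ = q' at h1
  rw [hq', ← h1]
  rw [← AlgHom.comp_apply, comp_aeval]
  rfl

theorem aeval_esq_injective (n : ℕ) :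
    Function.Injective (aeval (esq n) : MvPolynomial (Fin n) ℂ →ₐ[ℂ] MvPolynomial (Fin n) ℂ) := by
  rw [injective_iff_map_eq_zero]
  intro P hP
  have h1 : aeval (esq n) P = expand 2 (aeval (fun i : Fin n => esymm (Fin n) ℂ (i + 1)) P) := by
    rw [← AlgHom.comp_apply, comp_aeval]
    rfl
  rw [h1, expand_eq_zero (by norm_num)] at hP
  apply (esymmAlgHom_fin_bijective ℂ n).1
  rw [map_zero]
  apply Subtype.ext
  rw [esymmAlgHom_apply, hP]
  rfl

end

end Vale.Agent.P286.H42
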