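import Vale.Agent.P286.H374.ChevA
import Vale.Agent.P286.H802.CW
import Vale.Agent.P286.H42.ChevB2
import Vale.Agent.P286.H42.ChevC

/-! Chevalley restriction for `sp` and odd `so`: the invariant polynomials are the polynomials in
the even coefficients of the characteristic polynomial, which are algebraically independent. -/

namespace Vale.Agent.P286.H42

open MvPolynomial Matrix
open Vale.Agent.P286.H374

noncomputable section

set_option linter.unusedSectionVars false

variable {I : Type} [Fintype I] [DecidableEq I] (S : Dat I)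

/-- The projection commutes with `ad`. -/
theorem ad_proj (A : Matrix I I ℂ) (hA : S.Mem A) (f : PM I) :
    ad A (S.proj f) = S.proj (ad A f) := by
  induction f using MvPolynomial.induction_on with
  | C a =>
    rw [← MvPolynomial.algebraMap_eq, AlgHom.commutes, Derivation.map_algebraMap, map_zero]
  | add p q hp hq => simp only [map_add, hp, hq]
  | mul_X p a hp =>
    rw [map_mul, Derivation.leibniz, Derivation.leibniz, smul_eq_mul, smul_eq_mul, smul_eq_mul,
      smul_eq_mul, map_add, map_mul, map_mul, hp]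
    have key : ad A (S.proj (X a)) = S.proj (ad A (X a)) := by
      rcases a with ⟨i, j⟩
      have h1 : ad A (S.proj (X (i, j))) = C (1 / 2) * (ad A (X (i, j)) -
          C (S.e i * S.e j) * ad A (X (S.p j, S.p i))) := by
        rw [S.proj_X, Derivation.leibniz, ← MvPolynomial.algebraMap_eq,
          Derivation.map_algebraMap, smul_zero, add_zero, map_sub, Derivation.leibniz,
          Derivation.map_algebraMap, smul_zero, add_zero]
        rfl
      have h2 : ∑ k : I, C (A (S.p j) k) * (X (k, S.p i) : PM I) =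
          ∑ k : I, C (A (S.p j) (S.p k)) * X (S.p k, S.p i) :=
        (Equiv.sum_comp (⟨S.p, S.p, S.pp, S.pp⟩ : I ≃ I)
          (fun k => C (A (S.p j) k) * (X (k, S.p i) : PM I))).symm
      have h3 : ∑ k : I, C (A k (S.p i)) * (X (S.p j, k) : PM I) =
          ∑ k : I, C (A (S.p k) (S.p i)) * X (S.p j, S.p k) :=
        (Equiv.sum_comp (⟨S.p, S.p, S.pp, S.pp⟩ : I ≃ I)
          (fun k => C (A k (S.p i)) * (X (S.p j, k) : PM I))).symm
      rw [h1, ad_X, ad_X, map_sum]
      simp only [Finset.sum_sub_distrib]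
      rw [h2, h3]
      simp only [map_sub, map_mul, S.proj_X, MvPolynomial.algHom_C,
        MvPolynomial.algebraMap_eq]
      rw [← Finset.sum_sub_distrib, ← Finset.sum_sub_distrib, Finset.mul_sum,
        ← Finset.sum_sub_distrib, Finset.mul_sum]
      refine Finset.sum_congr rfl fun k _ => ?_
      have e1 : C (S.e i * S.e j) * C (A (S.p j) (S.p k)) =
          - (C (A k j) * C (S.e i * S.e k) : PM I) := by
        rw [← C_mul, ← C_mul, ← C_neg, hA k j]
        congr 1
        linear_combination (S.e i * S.e j * A (S.p j) (S.p k)) * (-1 : ℂ) * S.ee k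
      have e2 : C (S.e i * S.e j) * C (A (S.p k) (S.p i)) =
          - (C (A i k) * C (S.e k * S.e j) : PM I) := by
        rw [← C_mul, ← C_mul, ← C_neg, hA i k]
        congr 1
        linear_combination (S.e i * S.e j * A (S.p k) (S.p i)) * (-1 : ℂ) * S.ee k
      have hC : ∀ u v : ℂ, (C u * C v : PM I) = C (u * v) := fun u v => (C_mul).symm
      simp only [← hC] at e1 e2 ⊢
      linear_combination (-(C (1 / 2) : PM I) * X (S.p k, S.p i)) * e1 +
        ((C (1 / 2) : PM I) * X (S.p j, S.p k)) * e2
    rw [key]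

theorem proj_proj (f : PM I) : S.proj (S.proj f) = S.proj f := by
  have : S.proj.comp S.proj = S.proj := by
    apply MvPolynomial.algHom_ext
    rintro ⟨i, j⟩
    rw [AlgHom.comp_apply, S.proj_X]
    simp only [map_sub, map_mul, S.proj_X, MvPolynomial.algHom_C, MvPolynomial.algebraMap_eq]
    rw [S.pp, S.pp]
    have h1 : C (S.e i) * C (S.e j) * (C (S.e (S.p j)) * C (S.e (S.p i))) = (1 : PM I) := by
      rw [← C_mul, ← C_mul, ← C_mul, S.e_pp, ← C_1]
      congr 1
      linear_combination S.e_sq i j
    have h2 : (C (1 / 2) + C (1 / 2) : PM I) = 1 := by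
      rw [← C_add, ← C_1]; congr 1; norm_num
    linear_combination ((C (1 / 2) : PM I) * C (1 / 2) * X (i, j)) * h1 +
      (C (1 / 2) * (X (i, j) - C (S.e i) * C (S.e j) * X (S.p j, S.p i))) * h2
  exact AlgHom.congr_fun this f

/-- Coefficients of the characteristic polynomial of the generic matrix. -/
def chc (m : ℕ) : PM I := (mvPolynomialX I I ℂ).charpoly.coeff m

theorem ad_chc (A : Matrix I I ℂ) (m : ℕ) : ad A (chc m) = 0 := by
  rw [chc]
  refine H802.der_charpoly_coeff (ad A) (mvPolynomialX I I ℂ) (fun i j => - C (A i j)) ?_ m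
  intro i j
  rw [mvPolynomialX_apply, ad_X]
  refine Finset.sum_congr rfl fun k _ => ?_
  rw [mvPolynomialX_apply, mvPolynomialX_apply, smul_eq_mul, smul_eq_mul]
  ring

/-- A Cartan subspace of dimension `n`. -/
structure Car (n : ℕ) where
  j : Fin n → I
  inj : Function.Injective j
  ne : ∀ a b, S.p (j a) ≠ j b
  cov : ∀ i, (∃ a, i = j a) ∨ (∃ a, i = S.p (j a)) ∨ S.p i = i

namespace Car

variable {S} {n : ℕ} (c : Car S n)

/-- The point of the Cartan subspace with given coordinates. -/
def cx {R : Type} [CommRing R] (x : Fin n → R) (i : I) : R :=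
  ∑ a, x a * ((if i = c.j a then 1 else 0) - (if i = S.p (c.j a) then 1 else 0))

theorem cx_j {R : Type} [CommRing R] (x : Fin n → R) (b : Fin n) : c.cx x (c.j b) = x b := by
  rw [cx, Finset.sum_eq_single b]
  · rw [if_pos rfl, if_neg (c.ne b b).symm]; ring
  · intro a _ ha
    rw [if_neg (fun h => ha (c.inj h).symm), if_neg (c.ne a b).symm]; ring
  · intro h; exact absurd (Finset.mem_univ _) h

theorem cx_p {R : Type} [CommRing R] (x : Fin n → R) (i : I) : c.cx x (S.p i) = - c.cx x i := by
  rw [cx, cx, ← Finset.sum_neg_distrib]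
  refine Finset.sum_congr rfl fun a _ => ?_
  have h1 : (S.p i = c.j a) ↔ (i = S.p (c.j a)) :=
    ⟨fun h => by rw [← h, S.pp], fun h => by rw [h, S.pp]⟩
  have h2 : (S.p i = S.p (c.j a)) ↔ (i = c.j a) := ⟨fun h => pinj S h, fun h => by rw [h]⟩
  simp only [h1, h2]
  ring

theorem cx_unique (y : I → ℂ) (x : Fin n → ℂ) (hy : ∀ i, y (S.p i) = - y i)
    (hx : ∀ a, y (c.j a) = x a) : y = c.cx x := by
  funext i
  rcases c.cov i with ⟨a, rfl⟩ | ⟨a, rfl⟩ | h
  · rw [hx, c.cx_j]
  · rw [hy, hx, c.cx_p, c.cx_j]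
  · have h1 := hy i
    have h2 := c.cx_p x i
    rw [h] at h1 h2
    linear_combination (1 / 2 : ℂ) * h1 - (1 / 2 : ℂ) * h2

/-- Restriction to the Cartan subspace. -/
def res : PM I →ₐ[ℂ] MvPolynomial (Fin n) ℂ :=
  aeval fun a => if a.1 = a.2 then c.cx X a.1 else 0

theorem eval_res (x : Fin n → ℂ) (f : PM I) : eval x (c.res f) = eval (dg (c.cx x)) f := by
  have : (eval x).comp (c.res : PM I →+* MvPolynomial (Fin n) ℂ) = eval (dg (c.cx x)) := by
    apply MvPolynomial.ringHom_ext
    · intro r; simp
    · rintro ⟨i, k⟩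
      simp only [res, RingHom.comp_apply, RingHom.coe_coe, aeval_X, eval_X, dg]
      by_cases h : i = k
      · rw [if_pos h, if_pos h, cx, cx, map_sum]
        refine Finset.sum_congr rfl fun a _ => ?_
        rw [map_mul, eval_X, map_sub]
        congr 2
        · split_ifs <;> simp
        · split_ifs <;> simp
      · rw [if_neg h, if_neg h, map_zero]
  exact RingHom.congr_fun this f

theorem res_proj (f : PM I) : c.res (S.proj f) = c.res f := by
  have : c.res.comp S.proj = c.res := by
    apply MvPolynomial.algHom_ext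
    rintro ⟨i, k⟩
    rw [AlgHom.comp_apply, S.proj_X]
    simp only [map_sub, map_mul, MvPolynomial.algHom_C, MvPolynomial.algebraMap_eq, res, aeval_X]
    by_cases h : i = k
    · subst h
      have h1 : C (S.e i) * C (S.e i) = (1 : MvPolynomial (Fin n) ℂ) := by
        rw [← C_mul, S.ee, C_1]
      rw [if_pos rfl, if_pos rfl, h1, one_mul, c.cx_p]
      have h2 : (C (1 / 2) + C (1 / 2) : MvPolynomial (Fin n) ℂ) = 1 := by
        rw [← C_add, ← C_1]; congr 1; norm_num
      linear_combination (c.cx X i) * h2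
    · rw [if_neg h, if_neg (fun h' => h (pinj S h').symm)]
      ring
  exact AlgHom.congr_fun this f

theorem res_swap (F : PM I) (hF : ∀ A, S.Mem A → ad A F = 0) (a b : Fin n) (hab : a ≠ b)
    (x : Fin n → ℂ) : eval x (c.res F) = eval (x ∘ Equiv.swap a b) (c.res F) := by
  rw [c.eval_res, c.eval_res]
  have hj : c.j a ≠ c.j b := fun h => hab (c.inj h)
  rw [refl_swap S F hF (c.j a) (c.j b) hj (c.ne b a).symm (c.ne a a) (c.ne b b) (c.cx x)
    (c.cx_p x)]
  refine congrArg (fun y => eval (dg y) F) (c.cx_unique _ _ ?_ ?_)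
  · intro i
    have h1 : ∀ u, (S.p i = c.j u) ↔ (i = S.p (c.j u)) := fun u =>
      ⟨fun h => by rw [← h, S.pp], fun h => by rw [h, S.pp]⟩
    have h2 : ∀ u, (S.p i = S.p (c.j u)) ↔ (i = c.j u) := fun u =>
      ⟨fun h => pinj S h, fun h => by rw [h]⟩
    simp only [h1, h2, c.cx_p]
    ring
  · intro d
    simp only [c.cx_j, Function.comp_apply]
    rw [if_neg (c.ne b d).symm, if_neg (c.ne a d).symm]
    by_cases hda : d = a
    · subst hda
      rw [if_pos rfl, if_neg hj, Equiv.swap_apply_left]; ring
    · by_cases hdb : d = b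
      · subst hdb
        rw [if_neg hj.symm, if_pos rfl, Equiv.swap_apply_right]; ring
      · rw [if_neg (fun h => hda (c.inj h)), if_neg (fun h => hdb (c.inj h)),
          Equiv.swap_apply_of_ne_of_ne hda hdb]; ring

theorem res_sign (hs : S.k = -1 ∨ ∃ o, S.p o = o) (F : PM I) (hF : ∀ A, S.Mem A → ad A F = 0)
    (a : Fin n) (x : Fin n → ℂ) :
    eval x (c.res F) = eval (Function.update x a (- x a)) (c.res F) := by
  rw [c.eval_res, c.eval_res]
  have h0 : eval (dg (c.cx x)) F = eval (dg (fun i => c.cx x i - (2 * c.cx x (c.j a)) *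
      ((if i = c.j a then 1 else 0) - (if i = S.p (c.j a) then 1 else 0)))) F := by
    rcases hs with hk | ⟨o, ho⟩
    · exact refl_long S hk F hF (c.j a) (c.ne a a) (c.cx x) (c.cx_p x)
    · exact refl_short S F hF (c.j a) o ho (c.ne a a) (c.cx x) (c.cx_p x)
  rw [h0]
  refine congrArg (fun y => eval (dg y) F) (c.cx_unique _ _ ?_ ?_)
  · intro i
    have h1 : ∀ u, (S.p i = c.j u) ↔ (i = S.p (c.j u)) := fun u =>
      ⟨fun h => by rw [← h, S.pp], fun h => by rw [h, S.pp]⟩
    have h2 : ∀ u, (S.p i = S.p (c.j u)) ↔ (i = c.j u) := fun u =>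
      ⟨fun h => pinj S h, fun h => by rw [h]⟩
    simp only [h1, h2, c.cx_p]
    ring
  · intro d
    simp only [c.cx_j]
    rw [if_neg (c.ne a d).symm]
    by_cases hda : d = a
    · subst hda
      rw [if_pos rfl, Function.update_self]; ring
    · rw [if_neg (fun h => hda (c.inj h)), Function.update_of_ne hda]; ring

end Car

end

end Vale.Agent.P286.H42
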