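import Vale.Agent.P286.H42.ChevE

/-! Chevalley's theorem for `sp` and odd `so` in coordinates: polynomial ring on an arbitrary basis
of the Lie algebra, possibly embedded by another (congruent) form. -/

namespace Vale.Agent.P286.H42

open MvPolynomial Matrix
open Vale.Agent.P286.H374

noncomputable section

set_option linter.unusedSectionVars false

section gen

variable {κ J : Type} [Fintype κ] [Fintype J] [DecidableEq J]

/-- The generic element of the span of `b`. -/
def gmat (b : κ → Matrix J J ℂ) : Matrix J J (MvPolynomial κ ℂ) :=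
  fun i j => ∑ k, C (b k i j) * X k

/-- `D` is the derivation `f ↦ (Y ↦ df_Y([A, Y]))` of the polynomial functions on the span. -/
def IsAd (b : κ → Matrix J J ℂ) (A : Matrix J J ℂ)
    (D : Derivation ℂ (MvPolynomial κ ℂ) (MvPolynomial κ ℂ)) : Prop :=
  ∀ i j, D (gmat b i j) = ∑ k, (C (A i k) * gmat b k j - C (A k j) * gmat b i k)

theorem isAd_iff (b : κ → Matrix J J ℂ) (A : Matrix J J ℂ)
    (D : Derivation ℂ (MvPolynomial κ ℂ) (MvPolynomial κ ℂ)) :
    IsAd b A D ↔ (gmat b).map D = A.map (C : ℂ →+* MvPolynomial κ ℂ) * gmat b -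
      gmat b * A.map (C : ℂ →+* MvPolynomial κ ℂ) := by
  have hR : ∀ i j, (A.map (C : ℂ →+* MvPolynomial κ ℂ) * gmat b -
      gmat b * A.map (C : ℂ →+* MvPolynomial κ ℂ)) i j =
      ∑ k, (C (A i k) * gmat b k j - C (A k j) * gmat b i k) := by
    intro i j
    rw [Matrix.sub_apply, Matrix.mul_apply, Matrix.mul_apply, Finset.sum_sub_distrib]
    congr 1
    exact Finset.sum_congr rfl fun k _ => mul_comm _ _
  constructor
  · intro h
    ext i j : 2
    rw [hR, Matrix.map_apply, h i j]
  · intro h i j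
    rw [← hR, ← h, Matrix.map_apply]

end gen

variable {I : Type} [Fintype I] [DecidableEq I] (S : Dat I)
variable {κ : Type} [Fintype κ] [DecidableEq κ]

/-- Restriction of polynomial functions on matrices to the span of `b`. -/
def thb (b : κ → Matrix I I ℂ) : PM I →ₐ[ℂ] MvPolynomial κ ℂ := aeval fun a => gmat b a.1 a.2

theorem thb_proj (b : κ → Matrix I I ℂ) (hb : ∀ k, S.Mem (b k)) (f : PM I) :
    thb b (S.proj f) = thb b f := by
  have : (thb b).comp S.proj = thb b := by
    apply MvPolynomial.algHom_ext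
    rintro ⟨i, j⟩
    rw [AlgHom.comp_apply, S.proj_X]
    simp only [map_sub, map_mul, MvPolynomial.algHom_C, MvPolynomial.algebraMap_eq, thb, aeval_X,
      gmat]
    have h1 : C (S.e i) * C (S.e j) * ∑ k, C (b k (S.p j) (S.p i)) * X k =
        - ∑ k, C (b k i j) * (X k : MvPolynomial κ ℂ) := by
      rw [Finset.mul_sum, ← Finset.sum_neg_distrib]
      refine Finset.sum_congr rfl fun k _ => ?_
      rw [hb k i j, ← C_mul, ← mul_assoc, ← C_mul, ← neg_mul, ← C_neg]
      congr 2
      ring
    rw [h1]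
    have h2 : (C (1 / 2) + C (1 / 2) : MvPolynomial κ ℂ) = 1 := by
      rw [← C_add, ← C_1]; congr 1; norm_num
    linear_combination (∑ k, C (b k i j) * (X k : MvPolynomial κ ℂ)) * h2
  exact AlgHom.congr_fun this f

/-- Extension of polynomial functions on the span of `b` to matrices. -/
def etb (cf : κ → Matrix I I ℂ →ₗ[ℂ] ℂ) : MvPolynomial κ ℂ →ₐ[ℂ] PM I :=
  aeval fun k => ∑ i, ∑ j, C (cf k (Matrix.single i j 1)) * X (i, j)

theorem sum_single (A : Matrix I I ℂ) : A = ∑ i, ∑ j, A i j • Matrix.single i j (1 : ℂ) := by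
  conv_lhs => rw [Matrix.matrix_eq_sum_single A]
  refine Finset.sum_congr rfl fun i _ => Finset.sum_congr rfl fun j _ => ?_
  rw [Matrix.smul_single, smul_eq_mul, mul_one]

theorem cf_eq (cf : Matrix I I ℂ →ₗ[ℂ] ℂ) (A : Matrix I I ℂ) :
    cf A = ∑ i, ∑ j, A i j * cf (Matrix.single i j 1) := by
  conv_lhs => rw [sum_single A]
  simp only [map_sum, map_smul, smul_eq_mul]

theorem thb_etb (b : κ → Matrix I I ℂ) (cf : κ → Matrix I I ℂ →ₗ[ℂ] ℂ)
    (h2 : ∀ k l, cf k (b l) = if k = l then 1 else 0) (f : MvPolynomial κ ℂ) :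
    thb b (etb cf f) = f := by
  have : (thb b).comp (etb cf) = AlgHom.id ℂ _ := by
    apply MvPolynomial.algHom_ext
    intro k
    rw [AlgHom.comp_apply, AlgHom.id_apply, etb, aeval_X, thb]
    simp only [map_sum, map_mul, MvPolynomial.algHom_C, MvPolynomial.algebraMap_eq, aeval_X, gmat]
    have h3 : ∀ i j, C (cf k (Matrix.single i j 1)) * ∑ l, C (b l i j) * (X l : MvPolynomial κ ℂ) =
        ∑ l, C (b l i j * cf k (Matrix.single i j 1)) * X l := by
      intro i j
      rw [Finset.mul_sum]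
      refine Finset.sum_congr rfl fun l _ => ?_
      rw [C_mul]; ring
    simp only [h3]
    have h4 : ∑ i, ∑ j, ∑ l, C (b l i j * cf k (Matrix.single i j 1)) * (X l : MvPolynomial κ ℂ) =
        ∑ l, C (cf k (b l)) * X l := by
      have : ∀ l, C (cf k (b l)) * (X l : MvPolynomial κ ℂ) =
          ∑ i, ∑ j, C (b l i j * cf k (Matrix.single i j 1)) * X l := by
        intro l
        rw [cf_eq (cf k) (b l), map_sum, Finset.sum_mul]
        refine Finset.sum_congr rfl fun i _ => ?_
        rw [map_sum, Finset.sum_mul]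
      simp only [this]
      rw [Finset.sum_comm]
      conv_lhs => rw [Finset.sum_comm]
      conv_rhs => rw [Finset.sum_comm]
      refine Finset.sum_congr rfl fun i _ => ?_
      rw [Finset.sum_comm]
    rw [h4, Finset.sum_eq_single k]
    · rw [h2, if_pos rfl, C_1, one_mul]
    · intro l _ hl
      rw [h2, if_neg hl.symm, C_0, zero_mul]
    · intro h; exact absurd (Finset.mem_univ _) h
  exact AlgHom.congr_fun this f

/-- A derivation inducing `ad A` is compatible with the restriction. -/
theorem thb_ad (b : κ → Matrix I I ℂ) (A : Matrix I I ℂ)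
    (D : Derivation ℂ (MvPolynomial κ ℂ) (MvPolynomial κ ℂ)) (hD : IsAd b A D) (f : PM I) :
    D (thb b f) = thb b (ad A f) := by
  induction f using MvPolynomial.induction_on with
  | C a =>
    rw [← MvPolynomial.algebraMap_eq, AlgHom.commutes, Derivation.map_algebraMap,
      Derivation.map_algebraMap, map_zero]
  | add p q hp hq => rw [map_add, map_add, map_add, map_add, hp, hq]
  | mul_X p a hp =>
    have key : D (thb b (X a)) = thb b (ad A (X a)) := by
      rw [thb, aeval_X, hD, ad_X, map_sum]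
      refine Finset.sum_congr rfl fun k _ => ?_
      simp only [map_sub, map_mul, MvPolynomial.algHom_C, MvPolynomial.algebraMap_eq, aeval_X]
    rw [map_mul, Derivation.leibniz, Derivation.leibniz, smul_eq_mul, smul_eq_mul, smul_eq_mul,
      smul_eq_mul, map_add, map_mul, map_mul, hp, key]

theorem etb_thb (b : κ → Matrix I I ℂ) (cf : κ → Matrix I I ℂ →ₗ[ℂ] ℂ)
    (h1 : ∀ X, S.Mem X → X = ∑ k, cf k X • b k) (f : PM I) :
    S.proj (etb cf (thb b f)) = S.proj f := by
  have hg : (S.proj.comp (etb cf)).comp (thb b) = S.proj := by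
    apply MvPolynomial.algHom_ext
    rintro ⟨i, j⟩
    apply MvPolynomial.funext
    intro x
    have hev : ∀ g : PM I, eval x (S.proj g) =
        eval (fun a => (1 / 2) * (x a - S.e a.1 * S.e a.2 * x (S.p a.2, S.p a.1))) g := by
      intro g
      have h3 : (aeval x : PM I →ₐ[ℂ] ℂ).comp S.proj =
          aeval (fun a => (1 / 2) * (x a - S.e a.1 * S.e a.2 * x (S.p a.2, S.p a.1))) := by
        apply algHom_ext
        intro a
        rw [AlgHom.comp_apply, S.proj_X, aeval_X]
        simp
      exact AlgHom.congr_fun h3 g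
    rw [AlgHom.comp_apply, AlgHom.comp_apply, hev, hev]
    set y : I × I → ℂ := fun a => (1 / 2) * (x a - S.e a.1 * S.e a.2 * x (S.p a.2, S.p a.1))
      with hy
    set Y : Matrix I I ℂ := fun i j => y (i, j) with hY
    have hYm : S.Mem Y := by
      intro i j
      simp only [hY, hy, S.pp]
      have := S.e_pp j i
      rw [this]
      linear_combination (-(1 / 2 : ℂ) * x (i, j)) * S.e_sq i j
    simp only [thb, etb, aeval_X, gmat, map_sum, map_mul, MvPolynomial.algHom_C,
      MvPolynomial.algebraMap_eq, eval_C, eval_X]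
    have h4 := congrFun (congrFun (h1 Y hYm) i) j
    have h5 : ∀ k, cf k Y = ∑ u, ∑ v, cf k (Matrix.single u v 1) * y (u, v) := by
      intro k
      rw [cf_eq (cf k) Y]
      exact Finset.sum_congr rfl fun u _ => Finset.sum_congr rfl fun v _ => mul_comm _ _
    rw [Matrix.sum_apply] at h4
    have h6 : y (i, j) = Y i j := rfl
    rw [h6, h4]
    refine Finset.sum_congr rfl fun k _ => ?_
    rw [Matrix.smul_apply, smul_eq_mul, h5, mul_comm]
  have := AlgHom.congr_fun hg f
  exact this

/-- **Chevalley's theorem on a basis**: surjectivity. -/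
theorem basis_exists {n : ℕ} (c : Car S n) (hs : S.k = -1 ∨ ∃ o, S.p o = o) (hg : c.Good)
    (b : κ → Matrix I I ℂ) (hb : ∀ k, S.Mem (b k)) (cf : κ → Matrix I I ℂ →ₗ[ℂ] ℂ)
    (h1 : ∀ X, S.Mem X → X = ∑ k, cf k X • b k)
    (h2 : ∀ k l, cf k (b l) = if k = l then 1 else 0) (f : MvPolynomial κ ℂ)
    (hf : ∀ A, S.Mem A → ∃ D, IsAd b A D ∧ D f = 0) :
    ∃ P : MvPolynomial (Fin n) ℂ,
      f = aeval (fun k : Fin n => (gmat b).charpoly.coeff (Fintype.card I - 2 * (k + 1))) P := by
  have hth : thb b (S.proj (etb cf f)) = f := by rw [thb_proj S b hb, thb_etb b cf h2]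
  obtain ⟨P, hP⟩ := c.exists_aeval hs hg (S.proj (etb cf f)) (proj_proj S _) (by
    intro A hA
    obtain ⟨D, hD, hDf⟩ := hf A hA
    rw [ad_proj S A hA, ← etb_thb S b cf h1, ← thb_ad b A D hD, thb_etb b cf h2, hDf, map_zero,
      map_zero])
  refine ⟨P, ?_⟩
  rw [← hth, hP, ← AlgHom.comp_apply, comp_aeval]
  congr 2
  funext k
  rw [ys, thb_proj S b hb, chc]
  change (thb b : PM I →+* MvPolynomial κ ℂ) _ = _
  rw [← Polynomial.coeff_map, ← Matrix.charpoly_map]
  congr 2
  ext i j : 2
  rw [Matrix.map_apply, mvPolynomialX_apply, RingHom.coe_coe, thb, aeval_X]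

theorem thb_ys {n : ℕ} (b : κ → Matrix I I ℂ) (hb : ∀ k, S.Mem (b k)) (k : Fin n) :
    thb b (ys S n k) = (gmat b).charpoly.coeff (Fintype.card I - 2 * (k + 1)) := by
  rw [ys, thb_proj S b hb, chc]
  change (thb b : PM I →+* MvPolynomial κ ℂ) _ = _
  rw [← Polynomial.coeff_map, ← Matrix.charpoly_map]
  congr 2
  ext i j : 2
  rw [Matrix.map_apply, mvPolynomialX_apply, RingHom.coe_coe, thb, aeval_X]

/-- **Chevalley's theorem on a basis**: algebraic independence. -/
theorem basis_algInd {n : ℕ} (c : Car S n) (hg : c.Good)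
    (b : κ → Matrix I I ℂ) (hb : ∀ k, S.Mem (b k)) (cf : κ → Matrix I I ℂ →ₗ[ℂ] ℂ)
    (h1 : ∀ X, S.Mem X → X = ∑ k, cf k X • b k) :
    AlgebraicIndependent ℂ
      (fun k : Fin n => (gmat b).charpoly.coeff (Fintype.card I - 2 * ((k : ℕ) + 1))) := by
  have h0 := c.algInd hg
  rw [algebraicIndependent_iff_injective_aeval, injective_iff_map_eq_zero] at h0 ⊢
  intro P hP
  apply h0
  have h3 : thb b (aeval (ys S n) P) = 0 := by
    rw [← hP, ← AlgHom.comp_apply, comp_aeval]
    congr 2
    funext k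
    exact thb_ys S b hb k
  rw [← proj_aeval, ← etb_thb S b cf h1, h3, map_zero, map_zero]

end

end Vale.Agent.P286.H42
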