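import Vale.Agent.P286.H42.ChevF

/-! Chevalley's theorem for `sp` and odd `so` on a basis of any congruent form of the Lie algebra,
and the orthogonal form `X ^ T = - X`. -/

namespace Vale.Agent.P286.H42

open MvPolynomial Matrix
open Vale.Agent.P286.H374

noncomputable section

set_option linter.unusedSectionVars false

variable {I : Type} [Fintype I] [DecidableEq I] (S : Dat I)
variable {J : Type} [Fintype J] [DecidableEq J]
variable {κ : Type} [Fintype κ] [DecidableEq κ]

/-- scalar matrices -/
def cmt (κ : Type) {I J : Type} (U : Matrix I J ℂ) : Matrix I J (MvPolynomial κ ℂ) :=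
  U.map (C : ℂ →+* MvPolynomial κ ℂ)

theorem gmat_conj (U : Matrix I J ℂ) (V : Matrix J I ℂ) (b : κ → Matrix J J ℂ) :
    gmat (fun k => U * b k * V) = cmt κ U * gmat b * cmt κ V := by
  have h1 : ∀ (J : Type) [Fintype J] [DecidableEq J] (b : κ → Matrix J J ℂ),
      gmat b = ∑ k, (X k : MvPolynomial κ ℂ) • cmt κ (b k) := by
    intro J _ _ b
    ext i j : 2
    simp only [gmat, Matrix.sum_apply, Matrix.smul_apply, cmt, Matrix.map_apply, smul_eq_mul,
      mul_comm]
  rw [h1 I, h1 J, Matrix.mul_sum, Matrix.sum_mul]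
  refine Finset.sum_congr rfl fun k _ => ?_
  rw [Matrix.mul_smul, Matrix.smul_mul]
  congr 1
  rw [cmt, cmt, cmt, cmt, Matrix.map_mul, Matrix.map_mul]

theorem cmt_mul_one {U : Matrix I J ℂ} {V : Matrix J I ℂ} (h : U * V = 1) :
    cmt κ U * cmt κ V = 1 := by
  rw [cmt, cmt, ← Matrix.map_mul, h, Matrix.map_one _ (map_zero _) (map_one _)]

theorem charpoly_conj (U : Matrix I J ℂ) (V : Matrix J I ℂ) (hUV : U * V = 1) (hVU : V * U = 1)
    (b : κ → Matrix J J ℂ) :
    (gmat (fun k => U * b k * V)).charpoly = (gmat b).charpoly := by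
  have hc : Fintype.card I = Fintype.card J := by
    have h1 := congrArg Matrix.trace hUV
    rw [Matrix.trace_mul_comm, hVU, Matrix.trace_one, Matrix.trace_one] at h1
    exact (Nat.cast_injective h1).symm
  rw [gmat_conj]
  have h2 := Matrix.charpoly_mul_comm' (cmt κ U * gmat b) (cmt κ V)
  rw [hc, ← Matrix.mul_assoc, cmt_mul_one hVU, Matrix.one_mul] at h2
  have h3 : IsLeftRegular ((Polynomial.X : Polynomial (MvPolynomial κ ℂ)) ^ Fintype.card J) :=
    (Polynomial.monic_X_pow _).isRegular.left
  exact h3 h2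

theorem isAd_conj (U : Matrix I J ℂ) (V : Matrix J I ℂ) (hVU : V * U = 1)
    (b : κ → Matrix J J ℂ) (A : Matrix J J ℂ)
    (D : Derivation ℂ (MvPolynomial κ ℂ) (MvPolynomial κ ℂ)) (h : IsAd b A D) :
    IsAd (fun k => U * b k * V) (U * A * V) D := by
  rw [isAd_iff] at h ⊢
  have h1 : ∀ M : Matrix J J (MvPolynomial κ ℂ),
      (cmt κ U * M * cmt κ V).map D = cmt κ U * M.map D * cmt κ V := by
    intro M
    refine Matrix.ext fun i j => ?_
    have hc : ∀ x : ℂ, D (C x) = 0 := fun x => by
      rw [← MvPolynomial.algebraMap_eq, Derivation.map_algebraMap]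
    rw [Matrix.map_apply, Matrix.mul_apply, Matrix.mul_apply, map_sum]
    refine Finset.sum_congr rfl fun l _ => ?_
    rw [Derivation.leibniz, Matrix.mul_apply, Matrix.mul_apply, cmt, cmt, Matrix.map_apply, hc,
      smul_zero, zero_add, smul_eq_mul, mul_comm, map_sum]
    congr 1
    refine Finset.sum_congr rfl fun q _ => ?_
    rw [Derivation.leibniz, Matrix.map_apply, hc, smul_zero, add_zero, smul_eq_mul,
      Matrix.map_apply]
  rw [gmat_conj, h1, h]
  have h2 : (U * A * V).map (C : ℂ →+* MvPolynomial κ ℂ) =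
      cmt κ U * A.map (C : ℂ →+* MvPolynomial κ ℂ) * cmt κ V := by
    rw [Matrix.map_mul, Matrix.map_mul]; rfl
  rw [h2, Matrix.mul_sub, Matrix.sub_mul]
  have hv : cmt κ V * cmt κ U = 1 := cmt_mul_one hVU
  congr 1
  · calc cmt κ U * (A.map (C : ℂ →+* MvPolynomial κ ℂ) * gmat b) * cmt κ V
        = cmt κ U * A.map (C : ℂ →+* MvPolynomial κ ℂ) * (1 : Matrix J J (MvPolynomial κ ℂ)) *
          gmat b * cmt κ V := by
          simp only [Matrix.mul_one, Matrix.mul_assoc]
      _ = cmt κ U * A.map (C : ℂ →+* MvPolynomial κ ℂ) * (cmt κ V * cmt κ U) * gmat b *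
          cmt κ V := by rw [hv]
      _ = _ := by simp only [Matrix.mul_assoc]
  · calc cmt κ U * (gmat b * A.map (C : ℂ →+* MvPolynomial κ ℂ)) * cmt κ V
        = cmt κ U * gmat b * (1 : Matrix J J (MvPolynomial κ ℂ)) *
          A.map (C : ℂ →+* MvPolynomial κ ℂ) * cmt κ V := by
          simp only [Matrix.mul_one, Matrix.mul_assoc]
      _ = cmt κ U * gmat b * (cmt κ V * cmt κ U) * A.map (C : ℂ →+* MvPolynomial κ ℂ) *
          cmt κ V := by rw [hv]
      _ = _ := by simp only [Matrix.mul_assoc]

/-- A linearly independent family has coordinate functionals. -/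
theorem exists_coord (b : κ → Matrix J J ℂ) (hb : LinearIndependent ℂ b) :
    ∃ cf : κ → Matrix J J ℂ →ₗ[ℂ] ℂ, (∀ k l, cf k (b l) = if k = l then 1 else 0) ∧
      ∀ X ∈ Submodule.span ℂ (Set.range b), X = ∑ k, cf k X • b k := by
  classical
  obtain ⟨L, hL⟩ := LinearMap.exists_leftInverse_of_injective (Fintype.linearCombination ℂ b)
    (LinearMap.ker_eq_bot.mpr (by
      have := hb.fintypeLinearCombination_injective
      exact this))
  have h1 : ∀ l, L (b l) = Pi.single l 1 := by
    intro l
    have h2 := LinearMap.congr_fun hL (Pi.single l 1)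
    rw [LinearMap.comp_apply, Fintype.linearCombination_apply_single, one_smul,
      LinearMap.id_apply] at h2
    exact h2
  refine ⟨fun k => (LinearMap.proj k).comp L, fun k l => ?_, ?_⟩
  · rw [LinearMap.comp_apply, h1, LinearMap.proj_apply, Pi.single_apply]
  · intro X hX
    induction hX using Submodule.span_induction with
    | mem x hx =>
      obtain ⟨l, rfl⟩ := hx
      rw [Finset.sum_eq_single l]
      · rw [LinearMap.comp_apply, h1, LinearMap.proj_apply, Pi.single_eq_same, one_smul]
      · intro k _ hk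
        rw [LinearMap.comp_apply, h1, LinearMap.proj_apply, Pi.single_eq_of_ne hk, zero_smul]
      · intro h; exact absurd (Finset.mem_univ _) h
    | zero => simp
    | add x y _ _ hx hy =>
      conv_lhs => rw [hx, hy]
      rw [← Finset.sum_add_distrib]
      refine Finset.sum_congr rfl fun k _ => ?_
      rw [map_add, add_smul]
    | smul a x _ hx =>
      conv_lhs => rw [hx]
      rw [Finset.smul_sum]
      refine Finset.sum_congr rfl fun k _ => ?_
      rw [map_smul, smul_assoc]

section final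

variable {n : ℕ} (U : Matrix I J ℂ) (V : Matrix J I ℂ) (hUV : U * V = 1) (hVU : V * U = 1)
  (b : κ → Matrix J J ℂ) (hb : LinearIndependent ℂ b)
  (hsp : ∀ X : Matrix J J ℂ, X ∈ Submodule.span ℂ (Set.range b) ↔ S.Mem (U * X * V))

include hUV hVU hb hsp

theorem coord_conj : ∃ cf : κ → Matrix I I ℂ →ₗ[ℂ] ℂ,
    (∀ X, S.Mem X → X = ∑ k, cf k X • (U * b k * V)) ∧
    (∀ k l, cf k (U * b l * V) = if k = l then 1 else 0) := by
  obtain ⟨cf, h1, h2⟩ := exists_coord b hb
  have hback : ∀ X : Matrix I I ℂ, U * (V * X * U) * V = X := by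
    intro X
    calc U * (V * X * U) * V = (U * V) * X * (U * V) := by simp only [Matrix.mul_assoc]
      _ = X := by rw [hUV, Matrix.one_mul, Matrix.mul_one]
  let T : Matrix I I ℂ →ₗ[ℂ] Matrix J J ℂ :=
    { toFun := fun X => V * X * U
      map_add' := fun X Y => by rw [Matrix.mul_add, Matrix.add_mul]
      map_smul' := fun a X => by rw [Matrix.mul_smul, Matrix.smul_mul, RingHom.id_apply] }
  refine ⟨fun k => (cf k).comp T, fun X hX => ?_, fun k l => ?_⟩
  · have h3 := h2 (V * X * U) ((hsp _).mpr (by rw [hback]; exact hX))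
    have h4 := congrArg (fun Y => U * Y * V) h3
    simp only [hback] at h4
    conv_lhs => rw [h4]
    rw [Matrix.mul_sum, Matrix.sum_mul]
    refine Finset.sum_congr rfl fun k _ => ?_
    rw [Matrix.mul_smul, Matrix.smul_mul]
    rfl
  · have h5 : T (U * b l * V) = b l := by
      change V * (U * b l * V) * U = b l
      calc V * (U * b l * V) * U = (V * U) * b l * (V * U) := by simp only [Matrix.mul_assoc]
        _ = b l := by rw [hVU, Matrix.one_mul, Matrix.mul_one]
    rw [LinearMap.comp_apply, h5, h1]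

theorem card_eq_of_inv : Fintype.card I = Fintype.card J := by
  have h1 := congrArg Matrix.trace hUV
  rw [Matrix.trace_mul_comm, hVU, Matrix.trace_one, Matrix.trace_one] at h1
  exact (Nat.cast_injective h1).symm

/-- **Chevalley's theorem on a basis of a congruent form**: surjectivity. -/
theorem conj_exists (c : Car S n) (hs : S.k = -1 ∨ ∃ o, S.p o = o) (hg : c.Good)
    (f : MvPolynomial κ ℂ)
    (hf : ∀ A ∈ Submodule.span ℂ (Set.range b), ∃ D, IsAd b A D ∧ D f = 0) :
    ∃ P : MvPolynomial (Fin n) ℂ,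
      f = aeval (fun k : Fin n => (gmat b).charpoly.coeff (Fintype.card J - 2 * (k + 1))) P := by
  obtain ⟨cf, h1, h2⟩ := coord_conj S U V hUV hVU b hb hsp
  have hmem : ∀ k, S.Mem (U * b k * V) := fun k =>
    (hsp _).mp (Submodule.subset_span ⟨k, rfl⟩)
  have hback : ∀ X : Matrix I I ℂ, U * (V * X * U) * V = X := by
    intro X
    calc U * (V * X * U) * V = (U * V) * X * (U * V) := by simp only [Matrix.mul_assoc]
      _ = X := by rw [hUV, Matrix.one_mul, Matrix.mul_one]
  obtain ⟨P, hP⟩ := basis_exists S c hs hg (fun k => U * b k * V) hmem cf h1 h2 f (by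
    intro A hA
    obtain ⟨D, hD, hDf⟩ := hf (V * A * U) ((hsp _).mpr (by rw [hback]; exact hA))
    refine ⟨D, ?_, hDf⟩
    have := isAd_conj U V hVU b _ D hD
    rwa [hback] at this)
  refine ⟨P, ?_⟩
  rw [charpoly_conj U V hUV hVU b, card_eq_of_inv S U V hUV hVU b hb hsp] at hP
  exact hP

/-- **Chevalley's theorem on a basis of a congruent form**: algebraic independence. -/
theorem conj_algInd (c : Car S n) (hg : c.Good) :
    AlgebraicIndependent ℂ
      (fun k : Fin n => (gmat b).charpoly.coeff (Fintype.card J - 2 * ((k : ℕ) + 1))) := by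
  obtain ⟨cf, h1, h2⟩ := coord_conj S U V hUV hVU b hb hsp
  have hmem : ∀ k, S.Mem (U * b k * V) := fun k =>
    (hsp _).mp (Submodule.subset_span ⟨k, rfl⟩)
  have h3 := basis_algInd S c hg (fun k => U * b k * V) hmem cf h1
  rw [charpoly_conj U V hUV hVU b, card_eq_of_inv S U V hUV hVU b hb hsp] at h3
  exact h3

end final

end

end Vale.Agent.P286.H42
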