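import Vale.Agent.P286.H42.ChevG

/-! Chevalley's theorem for the skew matrices of odd size and for `sp` on an arbitrary index
type. -/

namespace Vale.Agent.P286.H42

open MvPolynomial Matrix
open Vale.Agent.P286.H374

noncomputable section

set_option linter.unusedSectionVars false

variable {I : Type} [Fintype I] [DecidableEq I] (S : Dat I)
variable {J : Type} [Fintype J] [DecidableEq J]
variable {κ : Type} [Fintype κ] [DecidableEq κ]

/-- The matrix of the form. -/
def Fm : Matrix I I ℂ := fun i j => if j = S.p i then S.e i else 0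

theorem mem_iff_form (X : Matrix I I ℂ) : S.Mem X ↔ Xᵀ * Fm S + Fm S * X = 0 := by
  have h : ∀ i j, (Xᵀ * Fm S + Fm S * X) i j =
      X (S.p j) i * S.e (S.p j) + S.e i * X (S.p i) j := by
    intro i j
    rw [Matrix.add_apply, Matrix.mul_apply, Matrix.mul_apply]
    congr 1
    · rw [Finset.sum_eq_single (S.p j)]
      · rw [Matrix.transpose_apply, Fm, if_pos (S.pp j).symm]
      · intro k _ hk
        rw [Fm, if_neg (fun h => hk (by rw [h, S.pp])), mul_zero]
      · intro h; exact absurd (Finset.mem_univ _) h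
    · rw [Finset.sum_eq_single (S.p i)]
      · rw [Fm, if_pos rfl]
      · intro k _ hk
        rw [Fm, if_neg hk, zero_mul]
      · intro h; exact absurd (Finset.mem_univ _) h
  constructor
  · intro hX
    ext i j
    rw [h, hX (S.p j) i, Matrix.zero_apply, S.pp]
    have h1 := S.ee (S.p j)
    linear_combination (-(S.e i * X (S.p i) j)) * h1
  · intro hX i j
    have h1 := congrFun (congrFun hX (S.p i)) j
    rw [h, Matrix.zero_apply, S.pp] at h1
    have h2 := S.ee (S.p i)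
    have h3 := S.e_pp i j
    linear_combination (S.e (S.p i)) * h1 - (X i j) * h2 -
      (X (S.p j) (S.p i)) * h3

theorem mem_conj_iff (U : Matrix I J ℂ) (V : Matrix J I ℂ) (hUV : U * V = 1) (hVU : V * U = 1)
    (G : Matrix J J ℂ) (hG : Uᵀ * Fm S * U = G) (X : Matrix J J ℂ) :
    S.Mem (U * X * V) ↔ Xᵀ * G + G * X = 0 := by
  rw [mem_iff_form]
  have hUVt : Vᵀ * Uᵀ = 1 := by rw [← Matrix.transpose_mul, hUV, Matrix.transpose_one]
  have hVUt : Uᵀ * Vᵀ = 1 := by rw [← Matrix.transpose_mul, hVU, Matrix.transpose_one]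
  have key : Xᵀ * G + G * X = Uᵀ * ((U * X * V)ᵀ * Fm S + Fm S * (U * X * V)) * U := by
    rw [← hG, Matrix.transpose_mul, Matrix.transpose_mul, Matrix.mul_add, Matrix.add_mul]
    congr 1
    · calc Xᵀ * (Uᵀ * Fm S * U) = 1 * Xᵀ * (Uᵀ * Fm S * U) := by rw [Matrix.one_mul]
        _ = (Uᵀ * Vᵀ) * Xᵀ * (Uᵀ * Fm S * U) := by rw [hVUt]
        _ = _ := by simp only [Matrix.mul_assoc]
    · calc Uᵀ * Fm S * U * X = Uᵀ * Fm S * U * (X * 1) := by rw [Matrix.mul_one]
        _ = Uᵀ * Fm S * U * (X * (V * U)) := by rw [hVU]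
        _ = _ := by simp only [Matrix.mul_assoc]
  constructor
  · intro h
    rw [key, h, Matrix.mul_zero, Matrix.zero_mul]
  · intro h
    rw [h] at key
    have h2 := congrArg (fun M => Vᵀ * M * V) key
    simp only [Matrix.mul_zero, Matrix.zero_mul] at h2
    rw [h2]
    symm
    calc Vᵀ * (Uᵀ * ((U * X * V)ᵀ * Fm S + Fm S * (U * X * V)) * U) * V =
        (Vᵀ * Uᵀ) * ((U * X * V)ᵀ * Fm S + Fm S * (U * X * V)) * (U * V) := by
          simp only [Matrix.mul_assoc]
      _ = _ := by rw [hUVt, hUV, Matrix.one_mul, Matrix.mul_one]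

/-- **Chevalley's theorem for a form `G` congruent to the standard one**. -/
theorem form_chev {n : ℕ} (c : Car S n) (hs : S.k = -1 ∨ ∃ o, S.p o = o) (hg : c.Good)
    (U : Matrix I J ℂ) (V : Matrix J I ℂ) (hUV : U * V = 1) (hVU : V * U = 1)
    (G : Matrix J J ℂ) (hG : Uᵀ * Fm S * U = G)
    (b : κ → Matrix J J ℂ) (hb : LinearIndependent ℂ b)
    (hsp : ∀ X : Matrix J J ℂ, X ∈ Submodule.span ℂ (Set.range b) ↔ Xᵀ * G + G * X = 0) :
    AlgebraicIndependent ℂ
      (fun k : Fin n => (gmat b).charpoly.coeff (Fintype.card J - 2 * ((k : ℕ) + 1))) ∧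
    ∀ f : MvPolynomial κ ℂ,
      (∀ A ∈ Submodule.span ℂ (Set.range b), ∃ D, IsAd b A D ∧ D f = 0) →
      ∃ P : MvPolynomial (Fin n) ℂ,
        f = aeval (fun k : Fin n => (gmat b).charpoly.coeff (Fintype.card J - 2 * (k + 1))) P := by
  have hsp' : ∀ X : Matrix J J ℂ, X ∈ Submodule.span ℂ (Set.range b) ↔ S.Mem (U * X * V) :=
    fun X => (hsp X).trans (mem_conj_iff S U V hUV hVU G hG X).symm
  exact ⟨conj_algInd S U V hUV hVU b hb hsp' c hg,
    fun f hf => conj_exists S U V hUV hVU b hb hsp' c hs hg f hf⟩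

/-- An orthonormal basis of the split form. -/
def soU (n : ℕ) : Matrix ((Fin n ⊕ Fin n) ⊕ Unit) ((Fin n ⊕ Fin n) ⊕ Unit) ℂ :=
  Matrix.fromBlocks (Matrix.fromBlocks 1 (Complex.I • 1) ((1 / 2 : ℂ) • 1)
    ((-Complex.I / 2) • 1)) 0 0 1

theorem Fm_so (n : ℕ) : Fm (Dat.so n) = Matrix.fromBlocks (Matrix.fromBlocks 0 1 1 0) 0 0 1 := by
  ext i j
  rcases i with (i | i) | i <;> rcases j with (j | j) | j <;>
    simp [Fm, Dat.so, Matrix.one_apply, eq_comm]

theorem Fm_sp (n : ℕ) : Fm (Dat.sp n) = Matrix.fromBlocks 0 1 (-1) 0 := by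
  ext i j
  rcases i with i | i <;> rcases j with j | j <;>
    simp [Fm, Dat.sp, Matrix.one_apply, eq_comm]
  split_ifs <;> simp

theorem soU_form (n : ℕ) : (soU n)ᵀ * Fm (Dat.so n) * soU n = 1 := by
  rw [Fm_so, soU]
  simp only [Matrix.fromBlocks_transpose, Matrix.fromBlocks_multiply, Matrix.transpose_one,
    Matrix.transpose_smul, Matrix.transpose_zero, Matrix.mul_zero, Matrix.zero_mul, add_zero,
    zero_add, Matrix.mul_one, Matrix.mul_smul, smul_smul, ← add_smul]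
  have h1 : (1 / 2 + 1 / 2 : ℂ) = 1 := by norm_num
  have h2 : Complex.I * (1 / 2) + -Complex.I / 2 = 0 := by ring
  have h3 : -Complex.I / 2 + 1 / 2 * Complex.I = 0 := by ring
  have h4 : Complex.I * (-Complex.I / 2) + -Complex.I / 2 * Complex.I = 1 := by
    have := Complex.I_mul_I
    linear_combination (-1 : ℂ) * this
  rw [h1, h2, h3, h4]
  simp only [one_smul, zero_smul, Matrix.fromBlocks_one]

theorem sp_form_one (n : ℕ) : (1 : Matrix (Fin n ⊕ Fin n) (Fin n ⊕ Fin n) ℂ)ᵀ *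
    Fm (Dat.sp n) * 1 = Matrix.fromBlocks 0 1 (-1) 0 := by
  rw [Matrix.transpose_one, Matrix.one_mul, Matrix.mul_one, Fm_sp]

/-- Reindexing a congruence. -/
theorem reindex_form {I' : Type} [Fintype I'] [DecidableEq I'] (F : Matrix I I ℂ)
    (U : Matrix I I' ℂ) (G : Matrix I' I' ℂ) (hG : Uᵀ * F * U = G) (r : J ≃ I') :
    (U.submatrix id r)ᵀ * F * U.submatrix id r = G.submatrix r r := by
  rw [← hG]
  ext i j
  simp only [Matrix.mul_apply, Matrix.transpose_apply, Matrix.submatrix_apply, id]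

theorem inv_of_form {F : Matrix I I ℂ} {U : Matrix I J ℂ} {G : Matrix J J ℂ}
    (hG : Uᵀ * F * U = G) (G' : Matrix J J ℂ) (hG' : G' * G = 1)
    (hc : Fintype.card I = Fintype.card J) :
    U * (G' * Uᵀ * F) = 1 ∧ (G' * Uᵀ * F) * U = 1 := by
  have h1 : (G' * Uᵀ * F) * U = 1 := by
    rw [← hG', ← hG]; simp only [Matrix.mul_assoc]
  exact ⟨(Matrix.mul_eq_one_comm_of_equiv (Fintype.equivOfCardEq hc)).mpr h1, h1⟩

/-- **Chevalley's theorem for the skew matrices of odd size.** -/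
theorem skew_chev {n : ℕ} (hc : Fintype.card J = 2 * n + 1)
    (b : κ → Matrix J J ℂ) (hb : LinearIndependent ℂ b)
    (hsp : ∀ X : Matrix J J ℂ, X ∈ Submodule.span ℂ (Set.range b) ↔ Xᵀ = - X) :
    AlgebraicIndependent ℂ
      (fun k : Fin n => (gmat b).charpoly.coeff (Fintype.card J - 2 * ((k : ℕ) + 1))) ∧
    ∀ f : MvPolynomial κ ℂ,
      (∀ A ∈ Submodule.span ℂ (Set.range b), ∃ D, IsAd b A D ∧ D f = 0) →
      ∃ P : MvPolynomial (Fin n) ℂ,
        f = aeval (fun k : Fin n => (gmat b).charpoly.coeff (Fintype.card J - 2 * (k + 1))) P := by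
  have hcI : Fintype.card ((Fin n ⊕ Fin n) ⊕ Unit) = Fintype.card J := by
    rw [Fintype.card_sum, Fintype.card_sum, Fintype.card_fin, Fintype.card_unit, hc]; ring
  have r : J ≃ (Fin n ⊕ Fin n) ⊕ Unit := (Fintype.equivOfCardEq hcI).symm
  have hG : ((soU n).submatrix id r)ᵀ * Fm (Dat.so n) * (soU n).submatrix id r = 1 := by
    rw [reindex_form _ _ _ (soU_form n) r, Matrix.submatrix_one_equiv]
  obtain ⟨h1, h2⟩ := inv_of_form hG 1 (Matrix.one_mul 1) hcI
  refine form_chev (Dat.so n) (carSo n) (Or.inr ⟨Sum.inr (), rfl⟩) (carSo_good n) _ _ h1 h2 1 hG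
    b hb (fun X => (hsp X).trans ?_)
  rw [Matrix.mul_one, Matrix.one_mul, add_eq_zero_iff_eq_neg]

/-- **Chevalley's theorem for `sp` in any indexing.** -/
theorem sp_chev {n : ℕ} (r : J ≃ Fin n ⊕ Fin n)
    (b : κ → Matrix J J ℂ) (hb : LinearIndependent ℂ b)
    (hsp : ∀ X : Matrix J J ℂ, X ∈ Submodule.span ℂ (Set.range b) ↔
      Xᵀ * (Matrix.fromBlocks 0 1 (-1) 0 : Matrix (Fin n ⊕ Fin n) (Fin n ⊕ Fin n) ℂ).submatrix r r +
      (Matrix.fromBlocks 0 1 (-1) 0 : Matrix (Fin n ⊕ Fin n) (Fin n ⊕ Fin n) ℂ).submatrix r r * X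
        = 0) :
    AlgebraicIndependent ℂ
      (fun k : Fin n => (gmat b).charpoly.coeff (Fintype.card J - 2 * ((k : ℕ) + 1))) ∧
    ∀ f : MvPolynomial κ ℂ,
      (∀ A ∈ Submodule.span ℂ (Set.range b), ∃ D, IsAd b A D ∧ D f = 0) →
      ∃ P : MvPolynomial (Fin n) ℂ,
        f = aeval (fun k : Fin n => (gmat b).charpoly.coeff (Fintype.card J - 2 * (k + 1))) P := by
  have hcI : Fintype.card (Fin n ⊕ Fin n) = Fintype.card J := Fintype.card_congr r.symm
  have hG := reindex_form _ _ _ (sp_form_one n) r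
  have hGG : (Matrix.fromBlocks 0 (-1) 1 0 :
      Matrix (Fin n ⊕ Fin n) (Fin n ⊕ Fin n) ℂ).submatrix r r *
      (Matrix.fromBlocks 0 1 (-1) 0 : Matrix (Fin n ⊕ Fin n) (Fin n ⊕ Fin n) ℂ).submatrix r r
        = 1 := by
    rw [Matrix.submatrix_mul_equiv, Matrix.fromBlocks_multiply]
    simp only [Matrix.mul_zero, Matrix.mul_one, Matrix.mul_neg, neg_neg, neg_zero,
      zero_add, add_zero, Matrix.fromBlocks_one, Matrix.submatrix_one_equiv]
  obtain ⟨h1, h2⟩ := inv_of_form hG _ hGG hcI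
  exact form_chev (Dat.sp n) (carSp n) (Or.inl rfl) (carSp_good n) _ _ h1 h2 _ hG b hb hsp

end

end Vale.Agent.P286.H42
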