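import Vale.Agent.P286.H166.Wk1
import Vale.Agent.P286.H374.GauC

/-!
# Invariance of the polynomials `ep k` under conjugation
-/

namespace Vale.Agent.P286.H42

open Matrix Vale.Agent.P286.H847 Vale.Agent.P286.H374

noncomputable section

variable {I : Type} [Fintype I] [DecidableEq I] {B : Type*} [CommRing B] [Algebra ℂ B]

/-- The value of `ep k` on the entries of a matrix over a commutative algebra. -/
theorem aeval_ep (F : Matrix I I B) (k : ℕ) :
    MvPolynomial.aeval (fun p : I × I => F p.1 p.2) (Wk.ep I k) =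
      if k ≤ Fintype.card I then F.charpoly.coeff (Fintype.card I - k) else 0 := by
  unfold Wk.ep
  split_ifs
  · have h := Matrix.charpoly.univ_coeff_eval₂Hom I (algebraMap ℂ B) (fun p : I × I => F p.1 p.2)
      (Fintype.card I - k)
    exact h
  · exact map_zero _

theorem charpoly_conj_of_mul_eq_one {F U V : Matrix I I B} (h : U * V = 1) :
    (V * F * U).charpoly = F.charpoly := by
  rw [Matrix.charpoly_mul_comm, ← mul_assoc, h, one_mul]

/-- **Invariance under conjugation.** -/
theorem aeval_ep_conj {F U V : Matrix I I B} (h : U * V = 1) (k : ℕ) :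
    MvPolynomial.aeval (fun p : I × I => (V * F * U) p.1 p.2) (Wk.ep I k) =
      MvPolynomial.aeval (fun p : I × I => F p.1 p.2) (Wk.ep I k) := by
  rw [aeval_ep, aeval_ep, charpoly_conj_of_mul_eq_one h]

/-- The polynomials `ep k` are invariant in the sense of `Gau.Invt`. -/
theorem invt_ep (k : ℕ) : Gau.Invt (Wk.ep I k) :=
  fun _ _ _ _ _ _ h => aeval_ep_conj h k

/-- Homogeneous polynomials: scaling. -/
theorem aeval_smul_of_hom {q : Pl I} {k : ℕ} (h : q.IsHomogeneous k) (c : B) (f : I × I → B) :
    MvPolynomial.aeval (fun p => c * f p) q = c ^ k * MvPolynomial.aeval f q := by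
  rw [MvPolynomial.aeval_def, MvPolynomial.aeval_def, MvPolynomial.eval₂_eq',
    MvPolynomial.eval₂_eq', Finset.mul_sum]
  refine Finset.sum_congr rfl fun d hd => ?_
  have h1 : ∑ i, d i = k := by
    have h2 := h (MvPolynomial.mem_support_iff.1 hd)
    rw [Finsupp.weight_apply, Finsupp.sum_fintype _ _ (fun _ => by rw [zero_smul])] at h2
    simpa using h2
  simp only [mul_pow]
  rw [Finset.prod_mul_distrib, Finset.prod_pow_eq_pow_sum, h1]
  ring

/-- For `k` even, the value of `ep k` at the negative transpose is the value of `ep k`. -/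
theorem aeval_ep_neg_transpose {F : Matrix I I B} {k : ℕ} (hk : Even k) :
    MvPolynomial.aeval (fun p : I × I => - F p.2 p.1) (Wk.ep I k) =
      MvPolynomial.aeval (fun p : I × I => F p.1 p.2) (Wk.ep I k) := by
  have h := aeval_smul_of_hom (Wk.ep_hom (I := I) k) (-1 : B) (fun p : I × I => F p.2 p.1)
  simp only [neg_mul, one_mul] at h
  rw [h, hk.neg_one_pow, one_mul]
  have h2 := aeval_ep (Fᵀ) k
  simp only [Matrix.transpose_apply] at h2
  rw [h2, aeval_ep, Matrix.charpoly_transpose]

end

end Vale.Agent.P286.H42
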